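import Vale.Agent.P073.GB73.Spec
import Vale.Agent.P073.PR.Sphere

/-!
# P073, block GB3: cutting balls by discs, exact Props

`AmbStd n` is the output of ALX (`n = 3`) and of SCH2 (`n = 2`); `JordanSph` is Jordan-Schoenflies on
conical two-spheres.  `Cut n` and `InOut n` are consequences; `SpecCut` follows from
`InOut 2`, `InOut 3`, `JordanSph`.
-/

open Set Metric Topology Filter

namespace P073.GB932

open P073 P073.PR720 P073.GB73
open Vale.Agent.P073.St (V)

/-- every conical `(n-1)`-sphere in `ℝⁿ` is ambient standard -/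
def AmbStd (n : ℕ) : Prop :=
  ∀ S : Set (Fin n → ℝ), ConSphere (n - 1) S →
    ∃ Φ : ConHomeo (univ : Set (Fin n → ℝ)) (univ : Set (Fin n → ℝ)), Φ.toFun '' S = sphere 0 1

/-- Jordan-Schoenflies on conical spheres of dimension `n` -/
def JordanSph (n : ℕ) : Prop := ∀ S : Set V, ConSphere n S → JordanSch n S

/-- A disc `D` which meets the boundary `B` of the ball `C` exactly in its boundary `γ` cuts `C` into
two balls. -/
def Cut (n : ℕ) : Prop :=
  ∀ C B D γ : Set V, ConBall n C B → ConBall (n - 1) D γ → D ⊆ C → D ∩ B = γ →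
    ∃ B₁ B₂ C₁ C₂ : Set V, B₁ ∪ B₂ = B ∧ B₁ ∩ B₂ = γ ∧ ConBall (n - 1) B₁ γ ∧
      ConBall (n - 1) B₂ γ ∧ ConBall n C₁ (B₁ ∪ D) ∧ ConBall n C₂ (B₂ ∪ D) ∧ C₁ ∪ C₂ = C ∧
      C₁ ∩ C₂ = D

/-- The form used for bodies: `D = C ∩ frontier A`. -/
def InOut (n : ℕ) : Prop :=
  ∀ C B A : Set V, ConBall n C B → IsClosed A → ConBall (n - 1) (C ∩ frontier A) (B ∩ frontier A) →
    (C ∩ interior A).Nonempty → (C \ A).Nonempty →
    ConBall n (C ∩ A) ((B ∩ A) ∪ (C ∩ frontier A)) ∧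
      ConBall n (C \ interior A) ((B \ interior A) ∪ (C ∩ frontier A))

end P073.GB932
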