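import Vale.Agent.P073.GB932.Defs
import Vale.Agent.P073.PT.ArcGlue

/-!
# P073, block GB3: elementary facts about three-dimensional conical cell complexes
-/

open Set Metric Topology Filter

namespace P073.GB932

open P073 P073.PR720 P073.GB73
open Vale.Agent.P073.St (V)

/-! ### Local finiteness -/

section LF

variable {E : Type*} [NormedAddCommGroup E] [NormedSpace ℝ E] {W : Set E}

omit [NormedSpace ℝ E] in
theorem lf_sum {ι κ : Type*} {A : ι → Set E} {A' : κ → Set E} (h : LF A W) (h' : LF A' W) :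
    LF (Sum.elim A A') W := by
  intro z hz
  obtain ⟨U, hU, hf⟩ := h z hz
  obtain ⟨U', hU', hf'⟩ := h' z hz
  refine ⟨U ∩ U', inter_mem hU hU', ((hf.image Sum.inl).union (hf'.image Sum.inr)).subset ?_⟩
  rintro (i | i) hi
  · exact Or.inl ⟨i, hi.mono (inter_subset_inter_right _ inter_subset_left), rfl⟩
  · exact Or.inr ⟨i, hi.mono (inter_subset_inter_right _ inter_subset_right), rfl⟩

omit [NormedSpace ℝ E] in
theorem lf_prod_bool {ι : Type*} {A : ι → Set E} {A' : ι × Bool → Set E} (h : LF A W)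
    (hs : ∀ i s, A' (i, s) ⊆ A i) : LF A' W := by
  intro z hz
  obtain ⟨U, hU, hf⟩ := h z hz
  refine ⟨U, hU, (hf.prod (finite_univ (α := Bool))).subset ?_⟩
  rintro ⟨i, s⟩ hi
  exact ⟨hi.mono (inter_subset_inter_left _ (hs i s)), mem_univ _⟩

omit [NormedSpace ℝ E] in
theorem lf_subtype {ι : Type*} {A : ι → Set E} {p : ι → Prop} (h : LF A W) :
    LF (fun i : {i // p i} => A i.1) W := by
  intro z hz
  obtain ⟨U, hU, hf⟩ := h z hz
  refine ⟨U, hU, ?_⟩
  have : {i : {i // p i} | (A i.1 ∩ U).Nonempty} = Subtype.val ⁻¹' {i | (A i ∩ U).Nonempty} := rfl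
  rw [this]
  exact hf.preimage Subtype.val_injective.injOn

/-- relatively closed in `W` -/
def RC (X W : Set E) : Prop := ∀ z ∈ W, z ∈ closure X → z ∈ X

omit [NormedSpace ℝ E] in
theorem RC.union {X Y : Set E} (h : RC X W) (h' : RC Y W) : RC (X ∪ Y) W := by
  intro z hz hcl
  rw [closure_union] at hcl
  exact hcl.imp (h z hz) (h' z hz)

omit [NormedSpace ℝ E] in
theorem rc_iUnion {ι : Type*} {A : ι → Set E} (h : LF A W) (hA : ∀ i, IsClosed (A i)) :
    RC (⋃ i, A i) W := fun _ hz hcl => h.closed hA hz hcl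

end LF

/-! ### Sides of a body -/

section side

variable {R A : Set V} {x : V}

/-- the closed sides of a body -/
def side (R : Set V) : Bool → Set V
  | true => R
  | false => (interior R)ᶜ

theorem isClosed_side (hR : IsClosed R) (s : Bool) : IsClosed (side R s) := by
  cases s
  · exact isOpen_interior.isClosed_compl
  · exact hR

theorem frontier_subset_side (hR : IsClosed R) (s : Bool) : frontier R ⊆ side R s := by
  rw [hR.frontier_eq]
  cases s
  · exact fun x hx => hx.2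
  · exact sdiff_subset

theorem exists_side (R : Set V) (x : V) : ∃ s, x ∈ side R s := by
  by_cases hx : x ∈ R
  · exact ⟨true, hx⟩
  · exact ⟨false, fun h => hx (interior_subset h)⟩

theorem mem_frontier_of_sides (hR : IsClosed R) {s s' : Bool} (hs : s ≠ s') (h : x ∈ side R s)
    (h' : x ∈ side R s') : x ∈ frontier R := by
  rw [hR.frontier_eq]
  cases s <;> cases s'
  · exact absurd rfl hs
  · exact ⟨h', h⟩
  · exact ⟨h, h'⟩
  · exact absurd rfl hs

theorem side_iff (hR : IsClosed R) (hx : x ∉ frontier R) {s : Bool} (h : x ∈ side R s) (s' : Bool) :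
    x ∈ side R s' ↔ s' = s := by
  constructor
  · intro h'
    by_contra hne
    exact hx (mem_frontier_of_sides hR hne h' h)
  · rintro rfl; exact h

/-- a preconnected set off the frontier is on one side -/
theorem inside_or_outside (hR : IsClosed R) {S : Set V} (hS : IsPreconnected S)
    (hd : Disjoint S (frontier R)) : S ⊆ interior R ∨ S ⊆ Rᶜ := by
  have hcov : S ⊆ interior R ∪ Rᶜ := by
    intro x hx
    by_cases hxR : x ∈ R
    · left
      by_contra hi
      exact disjoint_left.1 hd hx (by rw [hR.frontier_eq]; exact ⟨hxR, hi⟩)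
    · exact Or.inr hxR
  have hdis : interior R ∩ Rᶜ = ∅ := by
    rw [← disjoint_iff_inter_eq_empty, disjoint_left]
    exact fun x hx hx' => hx' (interior_subset hx)
  exact (isPreconnected_iff_subset_of_disjoint.1 hS) _ _ isOpen_interior hR.isOpen_compl hcov
    (by rw [hdis, inter_empty])

theorem side_congr (hR : IsClosed R) {S : Set V} (hS : IsPreconnected S)
    (hd : Disjoint S (frontier R)) {x v : V} (hx : x ∈ S) (hv : v ∈ S) (s : Bool) :
    x ∈ side R s ↔ v ∈ side R s := by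
  rcases inside_or_outside hR hS hd with h | h
  · cases s
    · exact ⟨fun h' => absurd (h hx) h', fun h' => absurd (h hv) h'⟩
    · exact ⟨fun _ => interior_subset (h hv), fun _ => interior_subset (h hx)⟩
  · cases s
    · exact ⟨fun _ h' => h hv (interior_subset h'), fun _ h' => h hx (interior_subset h')⟩
    · exact ⟨fun h' => absurd h' (h hx), fun h' => absurd h' (h hv)⟩

theorem side_iff_of_interior (hR : IsClosed R) (hA : IsClosed A) {v : V} (h1 : v ∉ frontier R)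
    (h2 : v ∉ frontier A) (h : v ∈ interior R ↔ v ∈ interior A) (s : Bool) :
    v ∈ side R s ↔ v ∈ side A s := by
  cases s
  · exact not_congr h
  · have e1 : v ∈ R ↔ v ∈ interior R := by
      rw [hR.frontier_eq] at h1
      exact ⟨fun h' => by by_contra h''; exact h1 ⟨h', h''⟩, fun h' => interior_subset h'⟩
    have e2 : v ∈ A ↔ v ∈ interior A := by
      rw [hA.frontier_eq] at h2
      exact ⟨fun h' => by by_contra h''; exact h2 ⟨h', h''⟩, fun h' => interior_subset h'⟩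
    show v ∈ R ↔ v ∈ A
    rw [e1, e2, h]

end side

/-! ### Arcs -/

/-- an interior point cuts an arc into two connected pieces -/
theorem split_arc {E : Type*} [NormedAddCommGroup E] [NormedSpace ℝ E] {C : Set E} {a a' p : E}
    (h : ConBall 1 C {a, a'}) (hp : p ∈ C) (h1 : p ≠ a) (h2 : p ≠ a') :
    ∃ S S' : Set E, IsPreconnected S ∧ IsPreconnected S' ∧ a ∈ S ∧ a' ∈ S' ∧ C \ {p} = S ∪ S' := by
  obtain ⟨ψ, e0, e1⟩ := h.exists_param zero_lt_one
  obtain ⟨t, ht, rfl⟩ : ∃ t ∈ Icc (0:ℝ) 1, ψ.toFun t = p := by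
    rw [← ψ.image_eq] at hp; exact hp
  have ht0 : 0 < t := lt_of_le_of_ne ht.1 (by rintro rfl; exact h1 e0)
  have ht1 : t < 1 := lt_of_le_of_ne ht.2 (by rintro rfl; exact h2 e1)
  refine ⟨ψ.toFun '' Ico 0 t, ψ.toFun '' Ioc t 1,
    isPreconnected_Ico.image _ (ψ.cont.mono fun s hs => ⟨hs.1, hs.2.le.trans ht.2⟩),
    isPreconnected_Ioc.image _ (ψ.cont.mono fun s hs => ⟨ht.1.trans hs.1.le, hs.2⟩),
    ⟨0, ⟨le_rfl, ht0⟩, e0⟩, ⟨1, ⟨ht1, le_rfl⟩, e1⟩, ?_⟩
  ext x
  constructor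
  · rintro ⟨hx, hxt⟩
    rw [← ψ.image_eq] at hx
    obtain ⟨s, hs, rfl⟩ := hx
    have hst : s ≠ t := by rintro rfl; exact hxt rfl
    rcases lt_or_gt_of_ne hst with h' | h'
    · exact Or.inl ⟨s, ⟨hs.1, h'⟩, rfl⟩
    · exact Or.inr ⟨s, ⟨h', hs.2⟩, rfl⟩
  · rintro (⟨s, hs, rfl⟩ | ⟨s, hs, rfl⟩)
    · have hs' : s ∈ Icc (0:ℝ) 1 := ⟨hs.1, hs.2.le.trans ht.2⟩
      exact ⟨ψ.mapsTo hs', fun h' => hs.2.ne (ψ.injOn hs' ht h')⟩
    · have hs' : s ∈ Icc (0:ℝ) 1 := ⟨ht.1.trans hs.1.le, hs.2⟩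
      exact ⟨ψ.mapsTo hs', fun h' => hs.1.ne' (ψ.injOn hs' ht h')⟩

/-- the arc crosses both bodies once, in the same direction -/
theorem arc_sides {C R A : Set V} {a a' p q : V} (h : ConBall 1 C {a, a'}) (hR : IsClosed R)
    (hA : IsClosed A) (hp : C ∩ frontier R = {p}) (hq : C ∩ frontier A = {q})
    (ha : a ∈ interior R) (ha' : a' ∉ R) (hb : a ∈ interior A) (hb' : a' ∉ A)
    (χ : ConHomeo C C) (hχa : χ.toFun a = a) (hχa' : χ.toFun a' = a') (hχ : χ.toFun p = q) :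
    ∀ x ∈ C, ∀ s, (x ∈ side R s ↔ χ.toFun x ∈ side A s) := by
  have hpC : p ∈ C ∩ frontier R := hp ▸ mem_singleton p
  have hqC : q ∈ C ∩ frontier A := hq ▸ mem_singleton q
  have hpa : p ≠ a := by
    rintro rfl
    have := hpC.2
    rw [hR.frontier_eq] at this
    exact this.2 ha
  have hpa' : p ≠ a' := by
    rintro rfl
    have := hpC.2
    rw [hR.frontier_eq] at this
    exact ha' this.1
  obtain ⟨S, S', hS, hS', haS, haS', hU⟩ := split_arc h hpC.1 hpa hpa'
  have hSC : S ⊆ C := fun x hx => (hU ▸ (Or.inl hx : x ∈ S ∪ S') : x ∈ C \ {p}).1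
  have hSC' : S' ⊆ C := fun x hx => (hU ▸ (Or.inr hx : x ∈ S ∪ S') : x ∈ C \ {p}).1
  have hpS : ∀ x ∈ S ∪ S', x ≠ p := fun x hx => (hU ▸ hx : x ∈ C \ {p}).2
  have hd : ∀ x ∈ S ∪ S', x ∉ frontier R := by
    intro x hx hf
    have h1 : x ∈ C \ {p} := hU ▸ hx
    exact h1.2 (hp ▸ ⟨h1.1, hf⟩ : x ∈ ({p} : Set V))
  have hd' : ∀ x ∈ S ∪ S', χ.toFun x ∉ frontier A := by
    intro x hx hf
    have h1 : x ∈ C \ {p} := hU ▸ hx
    have h2 : χ.toFun x ∈ ({q} : Set V) := hq ▸ ⟨χ.mapsTo h1.1, hf⟩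
    have h3 : χ.toFun x = χ.toFun p := by rw [hχ]; exact h2
    exact h1.2 (χ.injOn h1.1 hpC.1 h3)
  have k1 : S ⊆ interior R := by
    rcases inside_or_outside hR hS (disjoint_left.2 fun x hx => hd x (Or.inl hx)) with h' | h'
    · exact h'
    · exact absurd (interior_subset ha) (h' haS)
  have k2 : S' ⊆ Rᶜ := by
    rcases inside_or_outside hR hS' (disjoint_left.2 fun x hx => hd x (Or.inr hx)) with h' | h'
    · exact absurd (interior_subset (h' haS')) ha'
    · exact h'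
  have k3 : χ.toFun '' S ⊆ interior A := by
    rcases inside_or_outside hA (hS.image _ (χ.cont.mono hSC)) (by
      rw [disjoint_left]; rintro _ ⟨x, hx, rfl⟩; exact hd' x (Or.inl hx)) with h' | h'
    · exact h'
    · exact absurd (interior_subset hb) (h' ⟨a, haS, hχa⟩)
  have k4 : χ.toFun '' S' ⊆ Aᶜ := by
    rcases inside_or_outside hA (hS'.image _ (χ.cont.mono hSC')) (by
      rw [disjoint_left]; rintro _ ⟨x, hx, rfl⟩; exact hd' x (Or.inr hx)) with h' | h'
    · exact absurd (interior_subset (h' ⟨a', haS', hχa'⟩)) hb'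
    · exact h'
  intro x hx s
  by_cases hxp : x = p
  · subst hxp
    rw [hχ]
    exact ⟨fun _ => frontier_subset_side hA s hqC.2, fun _ => frontier_subset_side hR s hpC.2⟩
  have hx' : x ∈ S ∪ S' := hU ▸ ⟨hx, hxp⟩
  rcases hx' with h' | h'
  · have e1 := k1 h'
    have e2 := k3 ⟨x, h', rfl⟩
    cases s
    · exact ⟨fun h'' => absurd e1 h'', fun h'' => absurd e2 h''⟩
    · exact ⟨fun _ => interior_subset e2, fun _ => interior_subset e1⟩
  · have e1 := k2 h'
    have e2 := k4 ⟨x, h', rfl⟩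
    cases s
    · exact ⟨fun _ h'' => e2 (interior_subset h''), fun _ h'' => e1 (interior_subset h'')⟩
    · exact ⟨fun h'' => absurd h'' e1, fun h'' => absurd h'' e2⟩

/-! ### The complex -/

section Cx3

variable {Vx B J I : Type} {e0 e1 : B → Vx} {inc : B → J → Prop} {qC : J → I → Prop} {Ω : Set V}
  (K : Cx3 e0 e1 inc qC Ω)

/-- the net -/
def net : Set V := ⋃ b, K.arc b

/-- the two-skeleton -/
def sk2 : Set V := ⋃ j, K.tile j

/-- the boundary of a cell -/
def cbd (c : I) : Set V := ⋃ s ∈ {s | qC s c}, K.tile s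

theorem tile_subset_cell {j : J} {c : I} (h : qC j c) : K.tile j ⊆ K.cell c :=
  (subset_biUnion_of_mem (u := fun s => K.tile s) (show j ∈ {s | qC s c} from h)).trans
    (K.cball c).1

theorem cell_subset (c : I) : K.cell c ⊆ Ω :=
  (subset_iUnion K.cell c).trans K.cover.subset

include K in
theorem exists_cell (j : J) : ∃ c, qC j c := by
  obtain ⟨c, d, -, h⟩ := K.two j
  exact ⟨c, (h c).2 (Or.inl rfl)⟩

theorem tile_subset (j : J) : K.tile j ⊆ Ω := by
  obtain ⟨c, hc⟩ := exists_cell K j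
  exact (tile_subset_cell K hc).trans (cell_subset K c)

theorem lf_tile : LF K.tile Ω :=
  K.clf.of_cover qC (fun j => by
    obtain ⟨c, hc⟩ := exists_cell K j
    exact ⟨c, hc, tile_subset_cell K hc⟩) K.fin_qC

theorem lf_arc : LF K.arc Ω :=
  (lf_tile K).of_cover inc (fun b => by
    obtain ⟨j, hj⟩ := K.arc_tile b
    exact ⟨j, hj, K.toCx2.arc_subset_tile hj⟩) K.fin_inc

theorem net_subset_sk2 : net K ⊆ sk2 K := by
  refine iUnion_subset fun b => ?_
  obtain ⟨j, hj⟩ := K.arc_tile b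
  exact (K.toCx2.arc_subset_tile hj).trans (subset_iUnion _ j)

theorem sk2_subset : sk2 K ⊆ Ω := iUnion_subset (tile_subset K)

theorem rc_net : RC (net K) Ω := rc_iUnion (lf_arc K) fun b => (K.ball b).isClosed

theorem rc_sk2 : RC (sk2 K) Ω := rc_iUnion (lf_tile K) fun j => (K.tball j).isClosed

variable {K}

/-- (K1) -/
theorem tile_pt {j : J} {x : V} (hx : x ∈ K.tile j) (hn : x ∉ net K) :
    (∀ b, x ∉ K.arc b) ∧ (∀ j', x ∈ K.tile j' ↔ j' = j) ∧ ∀ c, x ∈ K.cell c ↔ qC j c := by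
  have h1 : ∀ j', x ∈ K.tile j' ↔ j' = j := by
    intro j'
    constructor
    · intro h
      by_contra hne
      exact hn (K.tile_tile j' j hne ⟨h, hx⟩)
    · rintro rfl; exact hx
  refine ⟨fun b hb => hn (mem_iUnion.2 ⟨b, hb⟩), h1, fun c => ⟨fun h => ?_, fun h =>
    tile_subset_cell K h hx⟩⟩
  obtain ⟨s, hs, hxs⟩ := mem_iUnion₂.1 (K.cell_tile c j ⟨h, hx⟩)
  rw [(h1 s).1 hxs] at hs
  exact hs

/-- (K2) -/
theorem cell_pt {c : I} {x : V} (hx : x ∈ K.cell c) (hn : x ∉ sk2 K) :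
    (∀ b, x ∉ K.arc b) ∧ (∀ j, x ∉ K.tile j) ∧ ∀ c', x ∈ K.cell c' ↔ c' = c := by
  refine ⟨fun b hb => hn (net_subset_sk2 K (mem_iUnion.2 ⟨b, hb⟩)),
    fun j hj => hn (mem_iUnion.2 ⟨j, hj⟩), fun c' => ⟨fun h => ?_, ?_⟩⟩
  · by_contra hne
    exact hn (K.cell_cell c' c hne ⟨h, hx⟩)
  · rintro rfl; exact hx

/-- points of an edge which are not vertices -/
theorem arc_pt {b : B} {x : V} (hx : x ∈ K.arc b) (hn : x ∉ range K.y) :
    (∀ b', x ∈ K.arc b' ↔ b' = b) ∧ (∀ j, x ∈ K.tile j ↔ inc b j) ∧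
      ∀ c, x ∈ K.cell c ↔ ∃ j, inc b j ∧ qC j c := by
  have h1 : ∀ b', x ∈ K.arc b' ↔ b' = b := by
    intro b'
    constructor
    · intro h
      by_contra hne
      exact hn (K.inter b' b hne ⟨h, hx⟩)
    · rintro rfl; exact hx
  have h2 : ∀ j, x ∈ K.tile j ↔ inc b j := by
    intro j
    constructor
    · intro h
      obtain ⟨b', hb', hxb⟩ := mem_iUnion₂.1 (K.tile_arc j b ⟨h, hx⟩)
      rw [(h1 b').1 hxb] at hb'
      exact hb'
    · intro h; exact K.toCx2.arc_subset_tile h hx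
  refine ⟨h1, h2, fun c => ⟨fun h => ?_, ?_⟩⟩
  · obtain ⟨j, hj⟩ := K.arc_tile b
    obtain ⟨s, hs, hxs⟩ := mem_iUnion₂.1 (K.cell_tile c j ⟨h, (h2 j).2 hj⟩)
    exact ⟨s, (h2 s).1 hxs, hs⟩
  · rintro ⟨j, hj, hc⟩
    exact tile_subset_cell K hc ((h2 j).2 hj)

theorem cell_inter_sk2 (c : I) : K.cell c ∩ sk2 K = cbd K c := by
  apply Subset.antisymm
  · rintro x ⟨hx, hx'⟩
    obtain ⟨j, hj⟩ := mem_iUnion.1 hx'
    exact K.cell_tile c j ⟨hx, hj⟩
  · intro x hx
    refine ⟨(K.cball c).1 hx, ?_⟩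
    obtain ⟨s, -, hs⟩ := mem_iUnion₂.1 hx
    exact mem_iUnion.2 ⟨s, hs⟩

theorem tile_inter_net (j : J) : K.tile j ∩ net K = K.toCx2.bd j := by
  apply Subset.antisymm
  · rintro x ⟨hx, hx'⟩
    obtain ⟨b, hb⟩ := mem_iUnion.1 hx'
    exact K.tile_arc j b ⟨hx, hb⟩
  · intro x hx
    refine ⟨K.toCx2.bd_subset j hx, ?_⟩
    obtain ⟨b, -, hb⟩ := mem_iUnion₂.1 hx
    exact mem_iUnion.2 ⟨b, hb⟩

/-- the open cells are open -/
theorem isOpen_cell (hΩ : IsOpen Ω) (c : I) : IsOpen (K.cell c \ sk2 K) := by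
  have hrc : RC (sk2 K ∪ ⋃ d : {d // d ≠ c}, K.cell d.1) Ω :=
    (rc_sk2 K).union (rc_iUnion (lf_subtype K.clf) fun d => (K.cball d.1).isClosed)
  have heq : K.cell c \ sk2 K = Ω \ closure (sk2 K ∪ ⋃ d : {d // d ≠ c}, K.cell d.1) := by
    ext x
    constructor
    · rintro ⟨hx, hn⟩
      refine ⟨cell_subset K c hx, fun hcl => ?_⟩
      rcases hrc x (cell_subset K c hx) hcl with h | h
      · exact hn h
      · obtain ⟨⟨d, hd⟩, hxd⟩ := mem_iUnion.1 h
        exact hd (((cell_pt hx hn).2.2 d).1 hxd)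
    · rintro ⟨hx, hn⟩
      have hn' := fun h => hn (subset_closure h)
      rw [← K.cover] at hx
      obtain ⟨d, hd⟩ := mem_iUnion.1 hx
      have hdc : d = c := by
        by_contra hne
        exact hn' (Or.inr (mem_iUnion.2 ⟨⟨d, hne⟩, hd⟩))
      exact ⟨hdc ▸ hd, fun h => hn' (Or.inl h)⟩
  rw [heq]
  exact hΩ.sdiff isClosed_closure

theorem nonempty_sphere {n : ℕ} : (sphere (0 : Fin (n + 1) → ℝ) 1).Nonempty :=
  NormedSpace.sphere_nonempty.2 zero_le_one

theorem bdry_nonempty {n : ℕ} {C D : Set V} (h : ConBall (n + 1) C D) : D.Nonempty := by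
  obtain ⟨-, φ, hφ⟩ := h
  rw [← image_nonempty (f := φ.toFun), hφ]
  exact nonempty_sphere

/-- every tile has a vertex -/
theorem exists_vert_tile (j : J) : ∃ v, K.y v ∈ K.tile j := by
  obtain ⟨x, hx⟩ := bdry_nonempty (K.tball j)
  obtain ⟨b, hb, -⟩ := mem_iUnion₂.1 hx
  exact ⟨e0 b, K.toCx2.arc_subset_tile hb ((K.ball b).1 (Or.inl rfl))⟩

include K in
theorem exists_tile_cell (c : I) : ∃ j, qC j c := by
  obtain ⟨x, hx⟩ := bdry_nonempty (K.cball c)
  obtain ⟨j, hj, -⟩ := mem_iUnion₂.1 hx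
  exact ⟨j, hj⟩

theorem exists_vert_cell (c : I) : ∃ v, K.y v ∈ K.cell c := by
  obtain ⟨j, hj⟩ := exists_tile_cell (K := K) c
  obtain ⟨v, hv⟩ := exists_vert_tile (K := K) j
  exact ⟨v, tile_subset_cell K hj hv⟩

end Cx3

end P073.GB932
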