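import Vale.Agent.P073.GB932.SpecCut
import Vale.Agent.P073.IoD

/-!
# P073, block GB: the composition `SpecClean`, `SpecCut'` ==> `SpecGB`
-/

open Set Metric Topology Filter

namespace P073.GB932

open P073 P073.PR720 P073.GB73
open Vale.Agent.P073.St (V)

/-- invariance of domain for conical homeomorphisms -/
theorem image_interior_eq {n : ℕ} {X Y : Set (Fin n → ℝ)} (h : ConHomeo X Y) :
    h.toFun '' interior X = interior Y := by
  have h1 : ∀ {X Y : Set (Fin n → ℝ)} (h : ConHomeo X Y), h.toFun '' interior X ⊆ interior Y := by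
    intro X Y h
    refine interior_maximal ?_ (Vale.Agent.P073.Sep.isOpen_image_of_injOn isOpen_interior
      (h.cont.mono interior_subset) (h.injOn.mono interior_subset))
    exact (image_mono interior_subset).trans h.mapsTo.image_subset
  apply Subset.antisymm (h1 h)
  intro y hy
  refine ⟨h.invFun y, h1 h.symm ⟨y, hy, rfl⟩, h.right_inv (interior_subset hy)⟩

theorem image_frontier_eq {n : ℕ} {X Y : Set (Fin n → ℝ)} (h : ConHomeo X Y) (hX : IsClosed X)
    (hY : IsClosed Y) : h.toFun '' frontier X = frontier Y := by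
  rw [hX.frontier_eq, hY.frontier_eq, h.injOn.image_sdiff, inter_eq_right.2 interior_subset,
    image_interior_eq, h.image_eq]

/-! ### Bodies -/

section body

variable {A : Body} {Λ : Set V} {t : ℝ}

theorem isCompact_at (h : A.Good Λ) (t : ℝ) : IsCompact (A.at t) :=
  h.compact.image (by fun_prop)

end body

/-- gluing along a body in the domain -/
theorem exists_replace {Ω Λ R A : Set V} (hΩ : IsOpen Ω) (hR : IsClosed R) (hRΩ : R ⊆ Ω)
    (hRc : LocCone R) (hA : IsClosed A) (g : ConHomeo Ω Λ) (hg : g.toFun '' R = A)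
    (hgf : g.toFun '' frontier R = frontier A) (k : ConHomeo R A)
    (hk : EqOn k.toFun g.toFun (frontier R)) :
    ∃ φ : ConHomeo Ω Λ, EqOn φ.toFun k.toFun R ∧ ∀ x ∈ Ω, x ∉ interior R → φ.toFun x = g.toFun x := by
  have hfrR : frontier R ⊆ R := hR.frontier_subset
  have hAΛ : A ⊆ Λ := by rw [← hg]; exact (image_mono hRΩ).trans g.mapsTo.image_subset
  have hO : ConicalSet (Ω \ interior R) := (IsOpen.conicalSet hΩ).inter hRc.interior.compl.conicalSet
  have hgint : g.toFun '' (Ω \ interior R) = Λ \ interior A := by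
    have e : interior A = g.toFun '' interior R := by
      have e1 : interior A = A \ frontier A := (self_sdiff_frontier A).symm
      have e2 : interior R = R \ frontier R := (self_sdiff_frontier R).symm
      rw [e1, e2, (g.injOn.mono hRΩ).image_sdiff, inter_eq_right.2 hfrR, hg, hgf]
    rw [g.injOn.image_sdiff, inter_eq_right.2 (interior_subset.trans hRΩ), g.image_eq, e]
  let X : Bool → Set V := fun s => cond s R (Ω \ interior R)
  let Y : Bool → Set V := fun s => cond s A (Λ \ interior A)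
  have hXU : (⋃ s, X s) = Ω := by
    ext x
    constructor
    · intro hx
      obtain ⟨s, hs⟩ := mem_iUnion.1 hx
      cases s
      · exact hs.1
      · exact hRΩ hs
    · intro hx
      by_cases h : x ∈ interior R
      · exact mem_iUnion.2 ⟨true, interior_subset h⟩
      · exact mem_iUnion.2 ⟨false, hx, h⟩
  have hYU : (⋃ s, Y s) = Λ := by
    ext x
    constructor
    · intro hx
      obtain ⟨s, hs⟩ := mem_iUnion.1 hx
      cases s
      · exact hs.1
      · exact hAΛ hs
    · intro hx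
      by_cases h : x ∈ interior A
      · exact mem_iUnion.2 ⟨true, interior_subset h⟩
      · exact mem_iUnion.2 ⟨false, hx, h⟩
  have hX : RelLF X := by
    constructor
    · exact fun z _ => ⟨univ, univ_mem, toFinite _⟩
    · intro s z hz hcl
      rw [hXU] at hz
      cases s
      · exact ⟨hz, fun hi => (closure_minimal (t := (interior R)ᶜ) (fun x hx => hx.2)
          isOpen_interior.isClosed_compl hcl) hi⟩
      · have hcl : z ∈ closure R := hcl
        rwa [hR.closure_eq] at hcl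
  have hY : RelLF Y := by
    constructor
    · exact fun z _ => ⟨univ, univ_mem, toFinite _⟩
    · intro s z hz hcl
      rw [hYU] at hz
      cases s
      · exact ⟨hz, fun hi => (closure_minimal (t := (interior A)ᶜ) (fun x hx => hx.2)
          isOpen_interior.isClosed_compl hcl) hi⟩
      · have hcl : z ∈ closure A := hcl
        rwa [hA.closure_eq] at hcl
  let h : ∀ s, ConHomeo (X s) (Y s) := fun s => match s with
    | true => k
    | false => (g.restr hO sdiff_subset).cast rfl hgint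
  have hagree : ∀ x ∈ R, x ∉ interior R → k.toFun x = g.toFun x := fun x hx hi =>
    hk (by rw [hR.frontier_eq]; exact ⟨hx, hi⟩)
  have himg : ∀ z ∈ A, z ∉ interior A → ∃ x ∈ frontier R, g.toFun x = z := by
    intro z hz hi
    have : z ∈ frontier A := by rw [hA.frontier_eq]; exact ⟨hz, hi⟩
    rw [← hgf] at this
    exact this
  obtain ⟨φ, hφ⟩ := ConHomeo.exists_glue_family hX hY h
    (by
      rintro (_ | _) (_ | _) x hx
      · rfl
      · exact (hagree x hx.2 hx.1.2).symm
      · exact hagree x hx.1 hx.2.2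
      · rfl)
    (by
      rintro (_ | _) (_ | _) z hz
      · rw [inter_self, (h false).image_eq]; exact hz.1
      · obtain ⟨x, hx, rfl⟩ := himg z hz.2 hz.1.2
        have h' := hx
        rw [hR.frontier_eq] at h'
        exact ⟨x, ⟨⟨hRΩ h'.1, h'.2⟩, h'.1⟩, rfl⟩
      · obtain ⟨x, hx, rfl⟩ := himg z hz.1 hz.2.2
        have h' := hx
        rw [hR.frontier_eq] at h'
        exact ⟨x, ⟨h'.1, ⟨hRΩ h'.1, h'.2⟩⟩, hk hx⟩
      · rw [inter_self, (h true).image_eq]; exact hz.1)
  exact ⟨φ.cast hXU hYU, (hφ true).1, fun x hx hi => (hφ false).1 ⟨hx, hi⟩⟩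

/-- **(GB)** composition. -/
theorem specGB (hclean : SpecClean) (hcut : SpecCut') : SpecGB := by
  intro Vx B J I e0 e1 inc qC Ω Λ K h hΩ hΛ a b m hm hab F A P y A0 P0 y0 p M L hA hA0 hP hP0 hc hc0
    hbd hsep hsep0 hdom hv hM hMk hyL ρ hcol hW χ χ0 χ1 χ2 χ3 Z hZ hZR hZc hZF hZ0 θ hθ hθm
  obtain ⟨h', t, t0, ht, ht0, harc, hZ', htile, hu0, hcr, hd⟩ := hclean Vx B J I e0 e1 inc qC Ω Λ K h
    hΩ hΛ F A P y A0 P0 y0 hA hA0 hP hP0 hc hc0 hbd hsep hsep0 Z hZ hZF hZ0
  have hA0c : IsCompact (A0.at t0) := isCompact_at hA0 t0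
  have hA0Λ : A0.at t0 ⊆ Λ := hA0.sub t0 ht0
  have hball : ConBall 3 (A0.at t0) (frontier (A0.at t0)) := hA0.ball t0 ht0
  have hyarc : ∀ v, ∃ i, K.y v ∈ K.arc i := by
    intro v
    obtain ⟨i, hi⟩ := K.vert_arc v
    rcases hi with rfl | rfl
    · exact ⟨i, (K.ball i).1 (Or.inl rfl)⟩
    · exact ⟨i, (K.ball i).1 (Or.inr rfl)⟩
  have hhy : ∀ v, h'.toFun (K.y v) = h.toFun (K.y v) := fun v => by
    obtain ⟨i, hi⟩ := hyarc v
    exact harc i hi
  have hcr' : Crosses K.toGraph h'.toFun (A0.at t0) P0 (y0 t0) := by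
    have himg : ∀ i, h'.toFun '' K.arc i = h.toFun '' K.arc i := fun i => (harc i).image_eq
    constructor
    · intro i hi
      rw [himg]; exact (hc0 t0 ht0).off i hi
    · intro i hi
      rw [himg]; exact (hc0 t0 ht0).on i hi
    · intro i hi
      rw [hhy, hhy]; exact (hc0 t0 ht0).ends i hi
  let χ' : (i : B) → ConHomeo (K.arc i) (K.arc i) := χ ⟨t0, ht0⟩
  have hparc : ∀ i ∈ P0, p i ∈ K.arc i ∩ frontier (Icc a b) := fun i hi =>
    (fullCut_of_domCut hdom).mem_arc hi
  obtain ⟨h2, k1, k2, k3, k4, k5, k6⟩ := hcut Vx B J I e0 e1 inc qC Ω Λ K h' hΩ hΛ (A0.at t0) P0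
    (y0 t0) (Icc a b) p hball hA0Λ hP0 hcr' hdom hu0 hcr hd
    (fun v => by rw [hhy]; exact hv t0 ht0 v) χ' (χ0 _) (χ1 _) (χ2 _)
    (fun i hi => by
      rw [harc i ((χ' i).mapsTo (hparc i hi).1)]
      exact χ3 ⟨t0, ht0⟩ i hi)
  have hRcl : IsClosed (Icc a b) := isClosed_Icc
  have hRΩ : (Icc a b) ⊆ Ω := hdom.sub
  have hRc : LocCone (Icc a b) := locCone_Icc_pi a b
  have hfR : ConicalSet (frontier (Icc a b)) := hRc.frontier.conicalSet
  have hfRR : frontier (Icc a b) ⊆ (Icc a b) := hRcl.frontier_subset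
  let L0 : ConHomeo (Icc a b) (A0.at t0) := L ⟨t0, ht0⟩
  have hLf : L0.toFun '' frontier (Icc a b) = frontier (A0.at t0) :=
    image_frontier_eq L0 hRcl hA0c.isClosed
  -- the comparison map on the surface
  let gf : ConHomeo (frontier (Icc a b)) (frontier (A0.at t0)) :=
    (h2.restr hfR (hfRR.trans hRΩ)).cast rfl k6
  let Lf : ConHomeo (frontier (Icc a b)) (frontier (A0.at t0)) := (L0.restr hfR hfRR).cast rfl hLf
  let φ : ConHomeo (frontier (Icc a b)) (frontier (Icc a b)) := gf.trans Lf.symm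
  have hLφ : ∀ x ∈ frontier (Icc a b), L0.toFun (φ.toFun x) = h2.toFun x := fun x hx =>
    Lf.right_inv (gf.mapsTo hx)
  have hφinv : ∀ x, φ.toFun x = L0.invFun (h2.toFun x) := fun _ => rfl
  -- the marked points
  have hφM : ∀ x ∈ p '' M, φ.toFun x = x := by
    rintro _ ⟨i, hi, rfl⟩
    have hiP := hM hi
    rw [hφinv, k1 i _ (hparc i hiP).1, harc i ((χ' i).mapsTo (hparc i hiP).1),
      show h.toFun ((χ' i).toFun (p i)) = y0 t0 i from χ3 ⟨t0, ht0⟩ i hiP,
      show y0 t0 i = L0.toFun (p i) from hyL ⟨t0, ht0⟩ i hi,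
      L0.left_inv (hfRR (hparc i hiP).2)]
  -- closeness
  have hφρ : ∀ x ∈ frontier (Icc a b), ‖φ.toFun x - x‖ ≤ ρ := by
    intro x hx
    have hxΩ : x ∈ Ω := hRΩ (hfRR hx)
    have hxc : x ∈ ⋃ c, K.cell c := by rw [K.cover]; exact hxΩ
    obtain ⟨c, hc⟩ := mem_iUnion.1 hxc
    have hnd : ¬ Disjoint (K.cell c) (frontier (Icc a b)) := fun hd => disjoint_left.1 hd hc hx
    obtain ⟨W, w1, w2⟩ := hW c hnd
    obtain ⟨w3, ⟨i, hiP, -, hiW⟩, w4⟩ := w2 ⟨t0, ht0⟩
    refine w4 x ⟨hc, hx⟩ _ (φ.mapsTo hx) ?_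
    show L0.toFun (φ.toFun x) ∈ W
    rw [hLφ x hx]
    have hfx : h2.toFun x ∈ frontier (A0.at t0) := by rw [← k6]; exact mem_image_of_mem _ hx
    have hcx : h2.toFun x ∈ h'.toFun '' K.cell c := by rw [← k3]; exact mem_image_of_mem _ hc
    by_contra hxW
    -- the rest of the surface misses the cell
    have hiarc : p i ∈ K.arc i := (hparc i hiP).1
    have hyi : y0 t0 i = h'.toFun ((χ' i).toFun (p i)) := by
      rw [harc i ((χ' i).mapsTo hiarc)]
      exact (χ3 ⟨t0, ht0⟩ i hiP).symm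
    have hyif : y0 t0 i ∈ frontier (A0.at t0) := by
      have := hcr'.on i hiP
      have h3 : y0 t0 i ∈ h'.toFun '' K.arc i ∩ frontier (A0.at t0) := by
        rw [this]; exact mem_singleton _
      exact h3.2
    have hopen : IsOpen (h'.toFun '' (K.cell c \ sk2 K)) := by
      have : h'.toFun '' (K.cell c \ sk2 K) = Λ ∩ h'.invFun ⁻¹' (K.cell c \ sk2 K) := by
        ext z
        constructor
        · rintro ⟨u, hu, rfl⟩
          have huΩ := cell_subset K c hu.1
          refine ⟨h'.mapsTo huΩ, ?_⟩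
          show h'.invFun (h'.toFun u) ∈ K.cell c \ sk2 K
          rw [h'.left_inv huΩ]; exact hu
        · rintro ⟨hz, hz'⟩
          exact ⟨_, hz', h'.right_inv hz⟩
      rw [this]
      exact h'.cont_inv.isOpen_inter_preimage hΛ (isOpen_cell hΩ c)
    have hclosed : IsClosed (h'.toFun '' K.cell c) :=
      ((K.cball c).isCompact.image_of_continuousOn (h'.cont.mono (cell_subset K c))).isClosed
    have hcov : frontier (A0.at t0) \ W ⊆ (h'.toFun '' (K.cell c \ sk2 K)) ∪
        (h'.toFun '' K.cell c)ᶜ := by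
      rintro z ⟨hz, hzW⟩
      by_cases hzc : z ∈ h'.toFun '' K.cell c
      · left
        obtain ⟨u, hu, rfl⟩ := hzc
        refine ⟨u, ⟨hu, fun hus => hzW ?_⟩, rfl⟩
        have h3 : u ∈ cbd K c := cell_inter_sk2 (K := K) c ▸ ⟨hu, hus⟩
        obtain ⟨j, hj, huj⟩ := mem_iUnion₂.1 h3
        by_cases hjc : {i | inc i j ∧ i ∈ P0} = ∅
        · exact absurd hz (disjoint_left.1 (hu0 j hjc) (mem_image_of_mem _ huj))
        · obtain ⟨hjF, hjW⟩ := w1 j hj hjc
          exact hjW _ (ht j hjF) (interior_subset (htile j hjF (mem_image_of_mem _ huj)))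
      · exact Or.inr hzc
    have hdis : h'.toFun '' (K.cell c \ sk2 K) ∩ (h'.toFun '' K.cell c)ᶜ = ∅ := by
      rw [← disjoint_iff_inter_eq_empty, disjoint_left]
      exact fun z hz hz' => hz' (image_mono sdiff_subset hz)
    rcases (isPreconnected_iff_subset_of_disjoint.1 w3) _ _ hopen hclosed.isOpen_compl hcov
      (by rw [hdis, inter_empty]) with h3 | h3
    · obtain ⟨u, hu, hue⟩ := h3 ⟨hyif, hiW⟩
      rw [hyi] at hue
      have hχΩ : (χ' i).toFun (p i) ∈ Ω := by
        apply sk2_subset K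
        exact net_subset_sk2 K (mem_iUnion.2 ⟨i, (χ' i).mapsTo hiarc⟩)
      have := h'.injOn (cell_subset K c hu.1) hχΩ hue
      rw [this] at hu
      exact hu.2 (net_subset_sk2 K (mem_iUnion.2 ⟨i, (χ' i).mapsTo hiarc⟩))
    · exact h3 ⟨hfx, hxW⟩ hcx
  obtain ⟨Φ, f1, f2, f3⟩ := hcol φ hφM hφρ θ hθ hθm
  obtain ⟨h3, g1, g2⟩ := exists_replace hΩ hRcl hRΩ hRc hA0c.isClosed h2 k5 k6 (Φ.trans L0)
    (fun x hx => by
      show L0.toFun (Φ.toFun x) = _
      rw [f1 hx, hLφ x hx])
  refine ⟨h3, ⟨t0, ht0⟩, ?_, ?_, ?_, ?_, ?_⟩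
  · intro i x hx hxi
    have hxΩ : x ∈ Ω := sk2_subset K (net_subset_sk2 K (mem_iUnion.2 ⟨i, hx⟩))
    rw [g2 x hxΩ hxi, k1 i x hx, harc i ((χ' i).mapsTo hx)]
  · intro x hx
    have hxΩ := hZ.sub hx
    have hxc : x ∈ ⋃ c, K.cell c := by rw [K.cover]; exact hxΩ
    obtain ⟨c, hc⟩ := mem_iUnion.1 hxc
    have hcd : Disjoint (K.cell c) (frontier (Icc a b)) := by
      by_contra hnd
      exact disjoint_left.1 (hZc c hnd) hx hc
    rw [g2 x hxΩ (fun hi => disjoint_left.1 hZR hx (interior_subset hi)), k4 c hcd hc, hZ' hx]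
  · rw [g1.image_eq]
    exact (Φ.trans L0).image_eq
  · intro x hx
    have hxR : x ∈ (Icc a b) := ⟨fun i => by have := hx.1 i; simp only at this; linarith,
      fun i => by have := hx.2 i; simp only at this; linarith⟩
    rw [g1 hxR]
    show L0.toFun (Φ.toFun x) = L0.toFun x
    rw [f2 x hx]
  · intro i hi z hz hzm hzk
    rw [g1 hz]
    show L0.toFun (Φ.toFun z) = L0.toFun z
    rw [f3 (p i) (mem_image_of_mem _ hi) z hz hzm hzk]

end P073.GB932
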