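import Vale.Agent.P073.GB932.Iso

/-!
# P073, block GB3: `SpecCut` from `InOut 2`, `InOut 3` and Jordan-Schoenflies on the sphere
-/

open Set Metric Topology Filter

namespace P073.GB932

open P073 P073.PR720 P073.GB73
open Vale.Agent.P073.St (V)

variable {Vx B J I : Type} {e0 e1 : B → Vx} {inc : B → J → Prop} {qC : J → I → Prop} {Ω Λ : Set V}

/-- the open part of a conical ball is connected -/
theorem ball_interior_preconnected {E : Type*} [NormedAddCommGroup E] [NormedSpace ℝ E] {n : ℕ}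
    {C D : Set E} (h : ConBall n C D) : IsPreconnected (C \ D) := by
  obtain ⟨hDC, φ, hφ⟩ := h
  have : C \ D = φ.invFun '' (ball (0 : Fin n → ℝ) 1) := by
    ext x
    constructor
    · rintro ⟨hx, hxD⟩
      refine ⟨φ.toFun x, ?_, φ.left_inv hx⟩
      have h1 := φ.mapsTo hx
      rw [mem_closedBall_zero_iff] at h1
      rw [mem_ball_zero_iff]
      refine lt_of_le_of_ne h1 fun h2 => hxD ?_
      have h3 : φ.toFun x ∈ φ.toFun '' D := by rw [hφ]; exact mem_sphere_zero_iff_norm.2 h2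
      obtain ⟨y, hy, hyx⟩ := h3
      exact φ.injOn (hDC hy) hx hyx ▸ hy
    · rintro ⟨y, hy, rfl⟩
      have hy' : y ∈ closedBall (0 : Fin n → ℝ) 1 := ball_subset_closedBall hy
      refine ⟨φ.mapsTo_inv hy', fun hD => ?_⟩
      have h3 : φ.toFun (φ.invFun y) ∈ sphere (0 : Fin n → ℝ) 1 := hφ ▸ mem_image_of_mem _ hD
      rw [φ.right_inv hy', mem_sphere_zero_iff_norm] at h3
      rw [mem_ball_zero_iff] at hy
      exact hy.ne h3
  rw [this]
  exact (convex_ball _ _).isPreconnected.image _ (φ.cont_inv.mono ball_subset_closedBall)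

theorem conSphere_preconnected {E : Type*} [NormedAddCommGroup E] [NormedSpace ℝ E]
    {S : Set E} (h : ConSphere 2 S) : IsPreconnected S := by
  obtain ⟨φ⟩ := h
  rw [← φ.symm.image_eq]
  refine IsPreconnected.image ?_ _ φ.symm.cont
  have h3 : 1 < Module.rank ℝ (Fin 3 → ℝ) := by
    rw [rank_fun']; simp only [Fintype.card_fin]; exact_mod_cast (by norm_num : 1 < 3)
  exact (isConnected_sphere h3 0 zero_le_one).isPreconnected

/-! ### Pull back of a body -/

section pull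

variable (h : ConHomeo Ω Λ) {A : Set V}

/-- the preimage of a body -/
def pull (h : ConHomeo Ω Λ) (A : Set V) : Set V := Ω ∩ h.toFun ⁻¹' A

theorem pull_eq (hA : A ⊆ Λ) : pull h A = h.invFun '' A := by
  ext x
  constructor
  · rintro ⟨hx, hxA⟩
    exact ⟨h.toFun x, hxA, h.left_inv hx⟩
  · rintro ⟨y, hy, rfl⟩
    refine ⟨h.mapsTo_inv (hA hy), ?_⟩
    show h.toFun (h.invFun y) ∈ A
    rw [h.right_inv (hA hy)]; exact hy

theorem isCompact_pull (hA : A ⊆ Λ) (hc : IsCompact A) : IsCompact (pull h A) := by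
  rw [pull_eq h hA]
  exact hc.image_of_continuousOn (h.cont_inv.mono hA)

theorem interior_pull (hΩ : IsOpen Ω) (hΛ : IsOpen Λ) (hA : A ⊆ Λ) :
    interior (pull h A) = pull h (interior A) := by
  apply Subset.antisymm
  · intro x hx
    have hx' : x ∈ pull h A := interior_subset hx
    refine ⟨hx'.1, ?_⟩
    show h.toFun x ∈ interior A
    have hop : IsOpen (Λ ∩ h.invFun ⁻¹' interior (pull h A)) :=
      h.cont_inv.isOpen_inter_preimage hΛ isOpen_interior
    have hsub : Λ ∩ h.invFun ⁻¹' interior (pull h A) ⊆ A := by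
      rintro y ⟨hy, hy'⟩
      have h1 : h.invFun y ∈ pull h A := interior_subset hy'
      have h2 : h.toFun (h.invFun y) ∈ A := h1.2
      rwa [h.right_inv hy] at h2
    refine interior_maximal hsub hop ⟨h.mapsTo hx'.1, ?_⟩
    show h.invFun (h.toFun x) ∈ interior (pull h A)
    rw [h.left_inv hx'.1]; exact hx
  · have hop : IsOpen (pull h (interior A)) := h.cont.isOpen_inter_preimage hΩ isOpen_interior
    exact interior_maximal (fun x hx => ⟨hx.1, show h.toFun x ∈ A from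
      interior_subset (show h.toFun x ∈ interior A from hx.2)⟩) hop

theorem frontier_pull (hΩ : IsOpen Ω) (hΛ : IsOpen Λ) (hA : A ⊆ Λ) (hc : IsCompact A) :
    frontier (pull h A) = pull h (frontier A) := by
  rw [(isCompact_pull h hA hc).isClosed.frontier_eq, interior_pull h hΩ hΛ hA,
    hc.isClosed.frontier_eq]
  ext x
  constructor
  · rintro ⟨⟨h1, h2⟩, h3⟩
    exact ⟨h1, h2, fun h' => h3 ⟨h1, h'⟩⟩
  · rintro ⟨h1, h2, h3⟩
    exact ⟨⟨h1, h2⟩, fun h' => h3 h'.2⟩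

theorem inter_pull {S : Set V} (hS : S ⊆ Ω) :
    S ∩ pull h A = h.symm.toFun '' (h.toFun '' S ∩ A) := by
  ext x
  constructor
  · rintro ⟨hx, hxA⟩
    exact ⟨h.toFun x, ⟨mem_image_of_mem _ hx, hxA.2⟩, h.left_inv (hS hx)⟩
  · rintro ⟨_, ⟨⟨z, hz, rfl⟩, hA⟩, rfl⟩
    have : h.symm.toFun (h.toFun z) = z := h.left_inv (hS hz)
    rw [this]
    exact ⟨hz, hS hz, hA⟩

end pull

variable {K : Cx3 e0 e1 inc qC Ω} {R A : Set V} {P : Set B} {p q : B → V}

/-- `DomCut` in the form used in `Iso` -/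
theorem fullCut_of_domCut (h : DomCut K R P p) : FullCut K R P p where
  closed := h.ball.isClosed
  sub := h.sub
  crosses := h.crosses
  off_tile := fun j hj => h.off_tile j (not_not.1 hj)
  arc := h.arc
  off_cell := fun c hc => h.off_cell c fun j hj => by
    by_contra h'
    exact hc ⟨j, hj, h'⟩
  half := fun j hj s => by
    cases s
    · exact h.tile_out j hj
    · exact h.tile_in j hj
  disc := fun c hc => h.disc c hc
  hcell := fun c hc s => by
    cases s
    · exact h.cell_out c hc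
    · exact h.cell_in c hc

/-- the boundary curve of a crossed face meets the frontier in two points -/
theorem bd_frontier (hR : PreCut K R P p) {j : J} {b b' : B}
    (hj : {b | inc b j ∧ b ∈ P} = {b, b'}) :
    K.toCx2.bd j ∩ frontier R = {p b, p b'} := by
  rw [← C1_inter_X0 hR hj]
  have hb : b ∈ {b | inc b j ∧ b ∈ P} := by rw [hj]; exact Or.inl rfl
  apply Subset.antisymm
  · rintro x ⟨hx, hf⟩
    have h : x ∈ K.tile j ∩ net K := (tile_inter_net (K := K) j).symm ▸ hx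
    exact ⟨⟨h.1, hf⟩, net_subset_X0 h.2⟩
  · rintro x ⟨⟨hx, hf⟩, hx0⟩
    exact ⟨tile_inter_net (K := K) j ▸ ⟨hx, mem_net_of_X0 (cr_of hb.1 hb.2) hx hx0⟩, hf⟩

/-- both sides are present on a crossed edge -/
theorem arc_both (hR : PreCut K R P p) {b : B} (hb : b ∈ P) :
    (∃ x ∈ K.arc b, x ∈ interior R) ∧ ∃ x ∈ K.arc b, x ∉ R := by
  have h0 : K.y (e0 b) ∈ K.arc b := (K.ball b).1 (Or.inl rfl)
  have h1 : K.y (e1 b) ∈ K.arc b := (K.ball b).1 (Or.inr rfl)
  rcases hR.crosses.ends b hb with ⟨a1, a2⟩ | ⟨a1, a2⟩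
  · exact ⟨⟨_, h0, a1⟩, ⟨_, h1, a2⟩⟩
  · exact ⟨⟨_, h1, a1⟩, ⟨_, h0, a2⟩⟩

/-- an arc has a point different from its ends -/
theorem exists_mid {E : Type*} [NormedAddCommGroup E] [NormedSpace ℝ E] {C : Set E} {a b : E}
    (h : ConBall 1 C {a, b}) : ∃ x ∈ C, x ∉ ({a, b} : Set E) := by
  obtain ⟨ψ, h0, h1⟩ := h.exists_param zero_lt_one
  have hh : (1 / 2 : ℝ) ∈ Icc (0:ℝ) 1 := ⟨by norm_num, by norm_num⟩
  refine ⟨ψ.toFun (1 / 2), ψ.mapsTo hh, ?_⟩
  rintro (h | h)
  · rw [← h0] at h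
    have := ψ.injOn hh ⟨le_rfl, zero_le_one⟩ h
    norm_num at this
  · have h : ψ.toFun (1 / 2) = b := h
    rw [← h1] at h
    have := ψ.injOn hh ⟨zero_le_one, le_rfl⟩ h
    norm_num at this

/-- the frontier of the body does not meet the uncrossed cells -/
theorem off_cell_of (hΩ : IsOpen Ω) (hS : IsPreconnected (frontier A))
    (hP : ∃ x ∈ frontier A, x ∈ sk2 K) (hoff : ∀ j, ¬ cr inc P j → Disjoint (K.tile j) (frontier A))
    (c : I) (hc : ¬ crc inc qC P c) : Disjoint (K.cell c) (frontier A) := by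
  have hcov : frontier A ⊆ (K.cell c \ sk2 K) ∪ (K.cell c)ᶜ := by
    intro x hx
    by_cases hxc : x ∈ K.cell c
    · refine Or.inl ⟨hxc, fun hxs => ?_⟩
      have h : x ∈ cbd K c := cell_inter_sk2 (K := K) c ▸ ⟨hxc, hxs⟩
      obtain ⟨j, hj, hxj⟩ := mem_iUnion₂.1 h
      exact disjoint_left.1 (hoff j fun h => hc ⟨j, hj, h⟩) hxj hx
    · exact Or.inr hxc
  have hdis : (K.cell c \ sk2 K) ∩ (K.cell c)ᶜ = ∅ := by
    rw [← disjoint_iff_inter_eq_empty, disjoint_left]
    exact fun x hx hx' => hx' hx.1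
  rcases (isPreconnected_iff_subset_of_disjoint.1 hS) _ _ (isOpen_cell hΩ c)
    (K.cball c).isClosed.isOpen_compl hcov (by rw [hdis, inter_empty]) with h | h
  · obtain ⟨x, hx, hx'⟩ := hP
    exact absurd hx' (h hx).2
  · exact disjoint_left.2 fun x hx hx' => h hx' hx

/-- the frontier inside a crossed cell is a disc -/
theorem disc_of (hJ : JordanSch 2 (frontier A)) (hΩ : IsOpen Ω) {c : I}
    (hγ : ConSphere 1 (⋃ j ∈ {j | qC j c}, K.tile j ∩ frontier A))
    (h1 : ∃ x ∈ frontier A, x ∈ K.cell c \ sk2 K)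
    (h2 : ∃ x ∈ frontier A, x ∉ K.cell c) :
    ConBall 2 (K.cell c ∩ frontier A) (⋃ j ∈ {j | qC j c}, K.tile j ∩ frontier A) := by
  set γ : Set V := ⋃ j ∈ {j | qC j c}, K.tile j ∩ frontier A with hγdef
  have hγc : ∀ x ∈ frontier A, x ∈ K.cell c → (x ∈ γ ↔ x ∈ sk2 K) := by
    intro x hx hxc
    constructor
    · intro h
      obtain ⟨j, -, hxj, -⟩ := mem_iUnion₂.1 h
      exact mem_iUnion.2 ⟨j, hxj⟩
    · intro h
      have h : x ∈ cbd K c := cell_inter_sk2 (K := K) c ▸ ⟨hxc, h⟩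
      obtain ⟨j, hj, hxj⟩ := mem_iUnion₂.1 h
      exact mem_iUnion₂.2 ⟨j, hj, hxj, hx⟩
  have hγS : γ ⊆ frontier A := by
    intro x hx
    obtain ⟨j, -, -, h⟩ := mem_iUnion₂.1 hx
    exact h
  have hγC : γ ⊆ K.cell c := by
    intro x hx
    obtain ⟨j, hj, h, -⟩ := mem_iUnion₂.1 hx
    exact tile_subset_cell K hj h
  obtain ⟨U, W, hUW, hS, -, -, hU, hW⟩ := hJ γ hγS hγ
  have hUS : ∀ x ∈ U, x ∈ frontier A ∧ x ∉ γ := fun x hx =>
    (hS ▸ (Or.inl hx : x ∈ U ∪ W) : x ∈ frontier A \ γ)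
  have hWS : ∀ x ∈ W, x ∈ frontier A ∧ x ∉ γ := fun x hx =>
    (hS ▸ (Or.inr hx : x ∈ U ∪ W) : x ∈ frontier A \ γ)
  -- a side is inside or outside the cell
  have side : ∀ U : Set V, (∀ x ∈ U, x ∈ frontier A ∧ x ∉ γ) → ConBall 2 (U ∪ γ) γ →
      U ⊆ K.cell c \ sk2 K ∨ U ⊆ (K.cell c)ᶜ := by
    intro U hUS hU
    have hUp : IsPreconnected U := by
      have := ball_interior_preconnected hU
      rwa [union_sdiff_right, sdiff_eq_left.2 (disjoint_left.2 fun x hx => (hUS x hx).2)] at this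
    have hcov : U ⊆ (K.cell c \ sk2 K) ∪ (K.cell c)ᶜ := by
      intro x hx
      by_cases hxc : x ∈ K.cell c
      · exact Or.inl ⟨hxc, fun hxs => (hUS x hx).2 ((hγc x (hUS x hx).1 hxc).2 hxs)⟩
      · exact Or.inr hxc
    have hdis : (K.cell c \ sk2 K) ∩ (K.cell c)ᶜ = ∅ := by
      rw [← disjoint_iff_inter_eq_empty, disjoint_left]
      exact fun x hx hx' => hx' hx.1
    exact (isPreconnected_iff_subset_of_disjoint.1 hUp) _ _ (isOpen_cell hΩ c)
      (K.cball c).isClosed.isOpen_compl hcov (by rw [hdis, inter_empty])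
  have fin : ∀ U W : Set V, U ∪ W = frontier A \ γ → U ⊆ K.cell c \ sk2 K → W ⊆ (K.cell c)ᶜ →
      K.cell c ∩ frontier A = U ∪ γ := by
    intro U W hS hU hW
    apply Subset.antisymm
    · rintro x ⟨hxc, hx⟩
      by_cases hxγ : x ∈ γ
      · exact Or.inr hxγ
      · have : x ∈ U ∪ W := hS.symm ▸ ⟨hx, hxγ⟩
        rcases this with h | h
        · exact Or.inl h
        · exact absurd hxc (hW h)
    · rintro x (hx | hx)
      · have : x ∈ frontier A \ γ := hS ▸ Or.inl hx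
        exact ⟨(hU hx).1, this.1⟩
      · exact ⟨hγC hx, hγS hx⟩
  obtain ⟨x1, hx1, hx1c⟩ := h1
  obtain ⟨x2, hx2, hx2c⟩ := h2
  have m1 : x1 ∈ U ∪ W := hS.symm ▸ ⟨hx1, fun h => hx1c.2 ((hγc x1 hx1 hx1c.1).1 h)⟩
  have m2 : x2 ∈ U ∪ W := hS.symm ▸ ⟨hx2, fun h => hx2c (hγC h)⟩
  rcases side U hUS hU with hU' | hU' <;> rcases side W hWS hW with hW' | hW'
  · exfalso
    rcases m2 with h | h
    · exact hx2c (hU' h).1
    · exact hx2c (hW' h).1
  · rw [fin U W hS hU' hW']; exact hU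
  · rw [fin W U (by rw [union_comm]; exact hS) hW' hU']; exact hW
  · exfalso
    rcases m1 with h | h
    · exact hU' h hx1c.1
    · exact hW' h hx1c.1

/-- **The cut structure of the target body.** -/
theorem fullCut_of_preCut (hin2 : InOut 2) (hin3 : InOut 3) (hJ : JordanSch 2 (frontier A))
    (hΩ : IsOpen Ω) (hP : Pat inc P) (hR : FullCut K R P p) (hA : PreCut K A P q)
    (φ : ConHomeo (X1 K R P) (X1 K A P)) (hres : Resp K R A φ)
    (hcl : ∀ j c, cr inc P j → qC j c → ∃ x ∈ frontier A, x ∈ K.cell c \ sk2 K) :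
    FullCut K A P q := by
  have hdisc : ∀ c, crc inc qC P c → ConBall 2 (K.cell c ∩ frontier A)
      (⋃ j ∈ {j | qC j c}, K.tile j ∩ frontier A) := by
    intro c hc
    have h1 := image_B2 hR.toPreCut hA hres (Sum.inr ⟨c, hc⟩)
    have h2 : B2 K R P (Sum.inr ⟨c, hc⟩) ⊆ X1 K R P := by
      rw [← C2_inter_X1 hR.toPreCut]; exact inter_subset_right
    have h3 : ConBall 2 (K.cell c ∩ frontier R) (B2 K R P (Sum.inr ⟨c, hc⟩)) := hR.disc c hc
    have h4 : ConSphere 1 (B2 K A P (Sum.inr ⟨c, hc⟩)) := by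
      obtain ⟨ψ⟩ := h3.conSphere
      exact ⟨((φ.restr h3.conicalSet_bdry h2).cast rfl h1).symm.trans ψ⟩
    obtain ⟨j, hj, hcr⟩ := hc
    obtain ⟨c1, c2, hne, h12⟩ := K.two j
    refine disc_of hJ hΩ h4 (hcl j c hcr hj) ?_
    -- the other cell at the face
    obtain ⟨d, hd, hdc⟩ : ∃ d, qC j d ∧ d ≠ c := by
      by_cases h : c1 = c
      · exact ⟨c2, (h12 c2).2 (Or.inr rfl), fun h' => hne (h.trans h'.symm)⟩
      · exact ⟨c1, (h12 c1).2 (Or.inl rfl), h⟩
    obtain ⟨x, hx, hxd⟩ := hcl j d hcr hd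
    exact ⟨x, hx, fun hxc => hxd.2 (K.cell_cell d c hdc ⟨hxd.1, hxc⟩)⟩
  have hhalf : ∀ j, cr inc P j → ConBall 2 (K.tile j ∩ A) ((K.toCx2.bd j ∩ A) ∪
      (K.tile j ∩ frontier A)) ∧ ConBall 2 (K.tile j \ interior A) ((K.toCx2.bd j \ interior A) ∪
      (K.tile j ∩ frontier A)) := by
    intro j hj
    obtain ⟨b, b', hne, hbb⟩ := exists_pair hP hj
    have hb : b ∈ {b | inc b j ∧ b ∈ P} := by rw [hbb]; exact Or.inl rfl
    obtain ⟨⟨x, hx, hx'⟩, ⟨z, hz, hz'⟩⟩ := arc_both hA hb.2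
    refine hin2 (K.tile j) (K.toCx2.bd j) A (K.tball j) hA.closed ?_
      ⟨x, K.toCx2.arc_subset_tile hb.1 hx, hx'⟩ ⟨z, K.toCx2.arc_subset_tile hb.1 hz, hz'⟩
    rw [bd_frontier hA hbb]
    exact hA.arc j b b' hne hbb
  have hcell : ∀ c, crc inc qC P c → ConBall 3 (K.cell c ∩ A) ((cbd K c ∩ A) ∪
      (K.cell c ∩ frontier A)) ∧ ConBall 3 (K.cell c \ interior A) ((cbd K c \ interior A) ∪
      (K.cell c ∩ frontier A)) := by
    intro c hc
    have hdc := hdisc c hc
    obtain ⟨j, hj, hcr⟩ := hc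
    obtain ⟨b, b', hne, hbb⟩ := exists_pair hP hcr
    have hb : b ∈ {b | inc b j ∧ b ∈ P} := by rw [hbb]; exact Or.inl rfl
    obtain ⟨⟨x, hx, hx'⟩, ⟨z, hz, hz'⟩⟩ := arc_both hA hb.2
    refine hin3 (K.cell c) (cbd K c) A (K.cball c) hA.closed ?_
      ⟨x, tile_subset_cell K hj (K.toCx2.arc_subset_tile hb.1 hx), hx'⟩
      ⟨z, tile_subset_cell K hj (K.toCx2.arc_subset_tile hb.1 hz), hz'⟩
    have : cbd K c ∩ frontier A = ⋃ j ∈ {j | qC j c}, K.tile j ∩ frontier A := iUnion₂_inter _ _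
    rw [this]
    exact hdc
  exact
    { toPreCut := hA
      half := fun j hj s => by
        cases s
        · exact (hhalf j hj).2
        · exact (hhalf j hj).1
      disc := hdisc
      hcell := fun c hc s => by
        cases s
        · have := (hcell c hc).2
          rw [sdiff_eq, sdiff_eq] at this
          have e : cbd K c ∩ (interior A)ᶜ = ⋃ j ∈ {j | qC j c}, K.tile j ∩ (interior A)ᶜ :=
            iUnion₂_inter _ _
          rw [e] at this
          exact this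
        · have := (hcell c hc).1
          have e : cbd K c ∩ A = ⋃ j ∈ {j | qC j c}, K.tile j ∩ A := iUnion₂_inter _ _
          rw [e] at this
          exact this }

end P073.GB932
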