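import Vale.Agent.P073.GB932.Comp
import Vale.Agent.P073.GB200.Inputs
import Vale.Agent.P073.H339.SphereJS

/-!
# P073, block GB3: final form: only ALX (`AmbStd 3`) and Jordan-Schoenflies on the two-sphere
-/

open Set Metric Topology Filter

namespace P073.GB932

open P073 P073.PR720 P073.GB73
open Vale.Agent.P073.St (V)

theorem inOut_two' : InOut 2 := fun _ _ _ hC hA hD h1 h2 => P073.GB200.inOut_two hC hA hD h1 h2

theorem inOut_three' (hA3 : AmbStd 3) (hJ : JordanSch 2 (sphere (0 : Fin 3 → ℝ) 1)) : InOut 3 :=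
  fun _ _ _ hC hA hD h1 h2 => P073.GB200.inOut_three hA3 hJ hC hA hD h1 h2

theorem jordanSph_two (hJ : JordanSch 2 (sphere (0 : Fin 3 → ℝ) 1)) : JordanSph 2 := by
  rintro S ⟨φ⟩
  exact P073.GB200.JordanSch.transport hJ φ.symm

/-- **GB3**, from Alexander and Jordan-Schoenflies on the standard two-sphere -/
theorem specCut'_of (hA3 : AmbStd 3) (hJ : JordanSch 2 (sphere (0 : Fin 3 → ℝ) 1)) : SpecCut' :=
  specCut' inOut_two' (inOut_three' hA3 hJ) (jordanSph_two hJ)

/-- **GB3**, literally `SpecCut` of `GB73/Spec.lean`, from Alexander only -/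
theorem specCut (hA3 : AmbStd 3) : P073.GB73.SpecCut := by
  intro Vx B J I e0 e1 inc qC Ω Λ K h hΩ hΛ A0 P y R p _ _ _ _ hsub hball
  exact specCut'_of hA3 P073.H339.jordanSch_sphere Vx B J I e0 e1 inc qC Ω Λ K h hΩ hΛ A0 P y R p
    hball hsub

/-- **GB**: `SpecGB` of `GB73/Spec.lean` from Alexander and `SpecClean` -/
theorem specGB_of (hA3 : AmbStd 3) (hclean : P073.GB73.SpecClean) : P073.GB73.SpecGB :=
  specGB hclean (specCut'_of hA3 P073.H339.jordanSch_sphere)

end P073.GB932
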