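import Vale.Agent.P073.GB932.Basic

/-!
# P073, block GB3: two bodies cutting the complex in the same pattern
-/

open Set Metric Topology Filter

namespace P073.GB932

open P073 P073.PR720 P073.GB73
open Vale.Agent.P073.St (V)

variable {Vx B J I : Type} {e0 e1 : B → Vx} {inc : B → J → Prop} {qC : J → I → Prop} {Ω : Set V}

/-- crossed face -/
def cr (inc : B → J → Prop) (P : Set B) (j : J) : Prop := {b | inc b j ∧ b ∈ P} ≠ ∅

/-- crossed cell -/
def crc (inc : B → J → Prop) (qC : J → I → Prop) (P : Set B) (c : I) : Prop :=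
  ∃ j, qC j c ∧ cr inc P j

theorem cr_of {P : Set B} {b : B} {j : J} (h : inc b j) (hb : b ∈ P) : cr inc P j :=
  Nonempty.ne_empty ⟨b, h, hb⟩

/-- the body `R` cuts the complex `K` along the pattern `P`, in the points `p b` (first part) -/
structure PreCut (K : Cx3 e0 e1 inc qC Ω) (R : Set V) (P : Set B) (p : B → V) : Prop where
  closed : IsClosed R
  sub : R ⊆ Ω
  crosses : Crosses K.toGraph id R P p
  off_tile : ∀ j, ¬ cr inc P j → Disjoint (K.tile j) (frontier R)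
  arc : ∀ j b b', b ≠ b' → {b | inc b j ∧ b ∈ P} = {b, b'} →
    ConBall 1 (K.tile j ∩ frontier R) {p b, p b'}
  off_cell : ∀ c, ¬ crc inc qC P c → Disjoint (K.cell c) (frontier R)

variable {K : Cx3 e0 e1 inc qC Ω} {R A : Set V} {P : Set B} {p q : B → V}

namespace PreCut

theorem arc_inter (h : PreCut K R P p) {b : B} (hb : b ∈ P) : K.arc b ∩ frontier R = {p b} := by
  have := h.crosses.on b hb
  rwa [image_id] at this

theorem mem_arc (h : PreCut K R P p) {b : B} (hb : b ∈ P) : p b ∈ K.arc b ∩ frontier R := by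
  rw [h.arc_inter hb]; exact mem_singleton _

theorem off_arc (h : PreCut K R P p) {b : B} {x : V} (hx : x ∈ K.arc b) (hf : x ∈ frontier R) :
    b ∈ P ∧ x = p b := by
  have hb : b ∈ P := by
    by_contra hb
    have := h.crosses.off b hb
    rw [image_id] at this
    exact disjoint_left.1 this hx hf
  refine ⟨hb, ?_⟩
  have : x ∈ K.arc b ∩ frontier R := ⟨hx, hf⟩
  rw [h.arc_inter hb] at this
  exact this

theorem vert_off (h : PreCut K R P p) (v : Vx) : K.y v ∉ frontier R := by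
  intro hf
  obtain ⟨b, hb⟩ := K.vert_arc v
  have hvb : K.y v ∈ K.arc b := by
    rcases hb with rfl | rfl
    · exact (K.ball b).1 (Or.inl rfl)
    · exact (K.ball b).1 (Or.inr rfl)
  obtain ⟨hbP, -⟩ := h.off_arc hvb hf
  have he := h.crosses.ends b hbP
  simp only [id] at he
  rw [h.closed.frontier_eq] at hf
  rcases hb with rfl | rfl <;> rcases he with ⟨h1, h2⟩ | ⟨h1, h2⟩
  · exact hf.2 h1
  · exact h2 hf.1
  · exact h2 hf.1
  · exact hf.2 h1

end PreCut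

/-! ### Types of points -/

/-- the type of a point: the cells and sides which contain it -/
def tp (K : Cx3 e0 e1 inc qC Ω) (R : Set V) (x : V) :
    (B → Prop) × (J → Prop) × (I → Prop) × (Bool → Prop) :=
  (fun b => x ∈ K.arc b, fun j => x ∈ K.tile j, fun c => x ∈ K.cell c, fun s => x ∈ side R s)

theorem tp_eq_iff {x y : V} : tp K R x = tp K A y ↔ (∀ b, x ∈ K.arc b ↔ y ∈ K.arc b) ∧
    (∀ j, x ∈ K.tile j ↔ y ∈ K.tile j) ∧ (∀ c, x ∈ K.cell c ↔ y ∈ K.cell c) ∧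
    ∀ s, x ∈ side R s ↔ y ∈ side A s := by
  unfold tp
  simp only [Prod.mk.injEq, funext_iff, eq_iff_iff]

/-- `φ` respects the types -/
def Resp (K : Cx3 e0 e1 inc qC Ω) (R A : Set V) {X Y : Set V} (φ : ConHomeo X Y) : Prop :=
  ∀ x ∈ X, tp K R x = tp K A (φ.toFun x)

theorem Resp.image {X Y : Set V} {φ : ConHomeo X Y} (hφ : Resp K R A φ)
    (Q : (B → Prop) × (J → Prop) × (I → Prop) × (Bool → Prop) → Prop) {T T' : Set V}
    (hT : T ⊆ X) (hT' : T' ⊆ Y) (h : ∀ x ∈ X, x ∈ T ↔ Q (tp K R x))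
    (h' : ∀ y ∈ Y, y ∈ T' ↔ Q (tp K A y)) : φ.toFun '' T = T' := by
  apply Subset.antisymm
  · rintro _ ⟨x, hx, rfl⟩
    rw [h' _ (φ.mapsTo (hT hx)), ← hφ x (hT hx)]
    exact (h x (hT hx)).1 hx
  · intro y hy
    obtain ⟨x, hx, rfl⟩ : y ∈ φ.toFun '' X := φ.image_eq.symm ▸ hT' hy
    refine ⟨x, (h x hx).2 ?_, rfl⟩
    rw [hφ x hx]
    exact (h' _ (φ.mapsTo hx)).1 hy

theorem Resp.extend {ι : Type*} {X Y : Set V} {φ : ConHomeo X Y} (hφ : Resp K R A φ)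
    {C C' : ι → Set V} {Φ : ConHomeo (X ∪ ⋃ i, C i) (Y ∪ ⋃ i, C' i)}
    (h1 : EqOn Φ.toFun φ.toFun X) (h2 : ∀ i, Φ.toFun '' C i = C' i)
    (htp : ∀ i, ∀ x ∈ C i, x ∉ X → ∀ y ∈ C' i, y ∉ Y → tp K R x = tp K A y) : Resp K R A Φ := by
  intro x hx
  by_cases hxX : x ∈ X
  · rw [h1 hxX]; exact hφ x hxX
  have hx' : x ∈ ⋃ i, C i := hx.resolve_left hxX
  obtain ⟨i, hi⟩ := mem_iUnion.1 hx'
  refine htp i x hi hxX _ (h2 i ▸ mem_image_of_mem _ hi) fun hY => ?_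
  obtain ⟨z, hz, hzx⟩ : Φ.toFun x ∈ φ.toFun '' X := φ.image_eq.symm ▸ hY
  rw [← h1 hz] at hzx
  have := Φ.injOn (Or.inl hz) hx hzx
  exact hxX (this ▸ hz)

/-- types of the new points of a face -/
theorem tp_tile (hR : IsClosed R) (hA : IsClosed A) {j : J} {x y : V} (hx : x ∈ K.tile j)
    (hxn : x ∉ net K) (hy : y ∈ K.tile j) (hyn : y ∉ net K)
    (h : (x ∈ frontier R ∧ y ∈ frontier A) ∨ (x ∉ frontier R ∧ y ∉ frontier A ∧
      ∃ s, x ∈ side R s ∧ y ∈ side A s)) : tp K R x = tp K A y := by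
  obtain ⟨a1, a2, a3⟩ := tile_pt hx hxn
  obtain ⟨b1, b2, b3⟩ := tile_pt hy hyn
  rw [tp_eq_iff]
  refine ⟨fun b => ⟨fun h => absurd h (a1 b), fun h => absurd h (b1 b)⟩,
    fun j' => (a2 j').trans (b2 j').symm, fun c => (a3 c).trans (b3 c).symm, fun s => ?_⟩
  rcases h with ⟨h1, h2⟩ | ⟨h1, h2, s', h3, h4⟩
  · exact ⟨fun _ => frontier_subset_side hA s h2, fun _ => frontier_subset_side hR s h1⟩
  · rw [side_iff hR h1 h3, side_iff hA h2 h4]

/-- types of the new points of a cell -/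
theorem tp_cell (hR : IsClosed R) (hA : IsClosed A) {c : I} {x y : V} (hx : x ∈ K.cell c)
    (hxn : x ∉ sk2 K) (hy : y ∈ K.cell c) (hyn : y ∉ sk2 K)
    (h : (x ∈ frontier R ∧ y ∈ frontier A) ∨ (x ∉ frontier R ∧ y ∉ frontier A ∧
      ∃ s, x ∈ side R s ∧ y ∈ side A s)) : tp K R x = tp K A y := by
  obtain ⟨a1, a2, a3⟩ := cell_pt hx hxn
  obtain ⟨b1, b2, b3⟩ := cell_pt hy hyn
  rw [tp_eq_iff]
  refine ⟨fun b => ⟨fun h => absurd h (a1 b), fun h => absurd h (b1 b)⟩,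
    fun j => ⟨fun h => absurd h (a2 j), fun h => absurd h (b2 j)⟩,
    fun c => (a3 c).trans (b3 c).symm, fun s => ?_⟩
  rcases h with ⟨h1, h2⟩ | ⟨h1, h2, s', h3, h4⟩
  · exact ⟨fun _ => frontier_subset_side hA s h2, fun _ => frontier_subset_side hR s h1⟩
  · rw [side_iff hR h1 h3, side_iff hA h2 h4]

/-! ### Stage 0 -/

/-- the part where nothing has to be done, and the net -/
def X0 (K : Cx3 e0 e1 inc qC Ω) (P : Set B) : Set V :=
  net K ∪ ((⋃ j : {j // ¬ cr inc P j}, K.tile j.1) ∪ ⋃ c : {c // ¬ crc inc qC P c}, K.cell c.1)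

theorem X0_subset : X0 K P ⊆ Ω := by
  rintro x (h | h | h)
  · exact sk2_subset K (net_subset_sk2 K h)
  · obtain ⟨j, hj⟩ := mem_iUnion.1 h; exact tile_subset K _ hj
  · obtain ⟨j, hj⟩ := mem_iUnion.1 h; exact cell_subset K _ hj

theorem rc_X0 : RC (X0 K P) Ω :=
  (rc_net K).union ((rc_iUnion (lf_subtype (lf_tile K)) fun j => (K.tball j.1).isClosed).union
    (rc_iUnion (lf_subtype K.clf) fun c => (K.cball c.1).isClosed))

/-- the ends of an edge are the only vertices on it -/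
theorem vert_fixed {χ : (b : B) → ConHomeo (K.arc b) (K.arc b)}
    (h0 : ∀ b, (χ b).toFun (K.y (e0 b)) = K.y (e0 b))
    (h1 : ∀ b, (χ b).toFun (K.y (e1 b)) = K.y (e1 b)) {b : B} {x : V} (hx : x ∈ K.arc b)
    (hv : x ∈ range K.y) : (χ b).toFun x = x := by
  obtain ⟨v, rfl⟩ := hv
  rcases K.mem b v hx with rfl | rfl
  · exact h0 b
  · exact h1 b

theorem vert_of_fixed {χ : (b : B) → ConHomeo (K.arc b) (K.arc b)}
    (h0 : ∀ b, (χ b).toFun (K.y (e0 b)) = K.y (e0 b))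
    (h1 : ∀ b, (χ b).toFun (K.y (e1 b)) = K.y (e1 b)) {b : B} {x : V} (hx : x ∈ K.arc b)
    (hv : (χ b).toFun x ∈ range K.y) : x ∈ range K.y := by
  have h2 := vert_fixed h0 h1 ((χ b).mapsTo hx) hv
  rw [← (χ b).injOn ((χ b).mapsTo hx) hx h2]
  exact hv

theorem exists_k0 (hR : PreCut K R P p) (hA : PreCut K A P q)
    (hv : ∀ v, K.y v ∈ interior R ↔ K.y v ∈ interior A)
    (χ : (b : B) → ConHomeo (K.arc b) (K.arc b))
    (h0 : ∀ b, (χ b).toFun (K.y (e0 b)) = K.y (e0 b))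
    (h1 : ∀ b, (χ b).toFun (K.y (e1 b)) = K.y (e1 b))
    (h2 : ∀ b ∉ P, ∀ x ∈ K.arc b, (χ b).toFun x = x)
    (h3 : ∀ b ∈ P, (χ b).toFun (p b) = q b) :
    ∃ φ : ConHomeo (X0 K P) (X0 K P), (∀ b, ∀ x ∈ K.arc b, φ.toFun x = (χ b).toFun x) ∧
      (∀ j, ¬ cr inc P j → ∀ x ∈ K.tile j, φ.toFun x = x) ∧
      (∀ c, ¬ crc inc qC P c → ∀ x ∈ K.cell c, φ.toFun x = x) ∧ Resp K R A φ := by
  classical
  -- an edge and an uncrossed face
  have ftile : ∀ b j, ¬ cr inc P j → ∀ x ∈ K.arc b, x ∈ K.tile j → (χ b).toFun x = x := by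
    intro b j hj x hx hxj
    by_cases hb : b ∈ P
    · obtain ⟨b', hb', hxb'⟩ := mem_iUnion₂.1 (K.tile_arc j b ⟨hxj, hx⟩)
      have hne : b ≠ b' := by
        rintro rfl
        exact hj (cr_of hb' hb)
      exact vert_fixed h0 h1 hx (K.inter b b' hne ⟨hx, hxb'⟩)
    · exact h2 b hb x hx
  have fcell : ∀ b c, ¬ crc inc qC P c → ∀ x ∈ K.arc b, x ∈ K.cell c → (χ b).toFun x = x := by
    intro b c hc x hx hxc
    obtain ⟨j, hj⟩ := K.arc_tile b
    obtain ⟨s, hs, hxs⟩ := mem_iUnion₂.1 (K.cell_tile c j ⟨hxc, K.toCx2.arc_subset_tile hj hx⟩)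
    exact ftile b s (fun h => hc ⟨s, hs, h⟩) x hx hxs
  let X : B ⊕ ({j // ¬ cr inc P j} ⊕ {c // ¬ crc inc qC P c}) → Set V :=
    Sum.elim K.arc (Sum.elim (fun j => K.tile j.1) fun c => K.cell c.1)
  have hXeq : (⋃ i, X i) = X0 K P := by
    rw [iUnion_sum, iUnion_sum]; rfl
  have hXcl : ∀ i, IsClosed (X i) := by
    rintro (b | j | c)
    · exact (K.ball b).isClosed
    · exact (K.tball j.1).isClosed
    · exact (K.cball c.1).isClosed
  have hLF : RelLF X := by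
    constructor
    · intro z hz
      rw [hXeq] at hz
      exact lf_sum (lf_arc K) (lf_sum (lf_subtype (lf_tile K)) (lf_subtype K.clf)) z
        (X0_subset hz)
    · intro i z _ hcl
      rwa [(hXcl i).closure_eq] at hcl
  let h : ∀ i, ConHomeo (X i) (X i) := fun i => match i with
    | Sum.inl b => χ b
    | Sum.inr (Sum.inl j) => ConHomeo.refl (K.tball j.1).conicalSet
    | Sum.inr (Sum.inr c) => ConHomeo.refl (K.cball c.1).conicalSet
  have hfix : ∀ i j, i ≠ j → ∀ x ∈ X i ∩ X j, (h i).toFun x = x := by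
    rintro (b | j | c) i' hne x ⟨hx, hx'⟩
    · rcases i' with b' | j' | c'
      · have hbb : b ≠ b' := fun h => hne (by rw [h])
        exact vert_fixed h0 h1 hx (K.inter b b' hbb ⟨hx, hx'⟩)
      · exact ftile b j'.1 j'.2 x hx hx'
      · exact fcell b c'.1 c'.2 x hx hx'
    · rfl
    · rfl
  obtain ⟨φ, hφ⟩ := ConHomeo.exists_glue_family hLF hLF h
    (by
      intro i j
      by_cases hij : i = j
      · subst hij; exact fun x _ => rfl
      · intro x hx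
        rw [hfix i j hij x hx, hfix j i (Ne.symm hij) x hx.symm])
    (by
      intro i j y hy
      by_cases hij : i = j
      · subst hij
        rw [inter_self, (h i).image_eq]; exact hy.1
      · exact ⟨y, hy, hfix i j hij y hy⟩)
  have g1 : ∀ b, ∀ x ∈ K.arc b, φ.toFun x = (χ b).toFun x := fun b => (hφ (Sum.inl b)).1
  have g2 : ∀ j, ¬ cr inc P j → ∀ x ∈ K.tile j, φ.toFun x = x := fun j hj x hx =>
    (hφ (Sum.inr (Sum.inl ⟨j, hj⟩))).1 hx
  have g3 : ∀ c, ¬ crc inc qC P c → ∀ x ∈ K.cell c, φ.toFun x = x := fun c hc x hx =>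
    (hφ (Sum.inr (Sum.inr ⟨c, hc⟩))).1 hx
  -- vertices are on the same side
  have hvs : ∀ v s, K.y v ∈ side R s ↔ K.y v ∈ side A s := fun v s =>
    side_iff_of_interior hR.closed hA.closed (hR.vert_off v) (hA.vert_off v) (hv v) s
  have key : ∀ S : Set V, IsPreconnected S → Disjoint S (frontier R) → Disjoint S (frontier A) →
      ∀ v, K.y v ∈ S → ∀ x ∈ S, ∀ s, (x ∈ side R s ↔ x ∈ side A s) := by
    intro S hS hSR hSA v hvS x hx s
    rw [side_congr hR.closed hS hSR hx hvS s, hvs v s, side_congr hA.closed hS hSA hx hvS s]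
  have sarc : ∀ b, ∀ x ∈ K.arc b, ∀ s, (x ∈ side R s ↔ (χ b).toFun x ∈ side A s) := by
    intro b
    by_cases hb : b ∈ P
    · rcases hR.crosses.ends b hb with ⟨a1, a2⟩ | ⟨a1, a2⟩
      · simp only [id] at a1 a2
        have a3 := (hv _).1 a1
        have a4 : K.y (e1 b) ∉ A := by
          rcases hA.crosses.ends b hb with ⟨-, h⟩ | ⟨h, -⟩
          · exact h
          · exact absurd (interior_subset ((hv _).2 h)) a2
        exact arc_sides (K.ball b) hR.closed hA.closed (hR.arc_inter hb) (hA.arc_inter hb) a1 a2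
          a3 a4 (χ b) (h0 b) (h1 b) (h3 b hb)
      · simp only [id] at a1 a2
        have a3 := (hv _).1 a1
        have a4 : K.y (e0 b) ∉ A := by
          rcases hA.crosses.ends b hb with ⟨h, -⟩ | ⟨-, h⟩
          · exact absurd (interior_subset ((hv _).2 h)) a2
          · exact h
        exact arc_sides (by rw [pair_comm]; exact K.ball b) hR.closed hA.closed
          (hR.arc_inter hb) (hA.arc_inter hb) a1 a2 a3 a4 (χ b) (h1 b) (h0 b) (h3 b hb)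
    · intro x hx s
      rw [h2 b hb x hx]
      refine key (K.arc b) (K.ball b).isPreconnected ?_ ?_ (e0 b) ((K.ball b).1 (Or.inl rfl)) x hx s
      · exact disjoint_left.2 fun z hz hz' => hb (hR.off_arc hz hz').1
      · exact disjoint_left.2 fun z hz hz' => hb (hA.off_arc hz hz').1
  refine ⟨φ.cast hXeq hXeq, g1, g2, g3, ?_⟩
  show ∀ x ∈ X0 K P, tp K R x = tp K A (φ.toFun x)
  intro x hx
  rw [tp_eq_iff]
  rcases hx with hx | hx | hx
  · obtain ⟨b, hb⟩ := mem_iUnion.1 hx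
    rw [g1 b x hb]
    by_cases hvx : x ∈ range K.y
    · refine ⟨?_, ?_, ?_, sarc b x hb⟩ <;> rw [vert_fixed h0 h1 hb hvx] <;> exact fun _ => Iff.rfl
    · have hvx' : (χ b).toFun x ∉ range K.y := fun h => hvx (vert_of_fixed h0 h1 hb h)
      obtain ⟨a1, a2, a3⟩ := arc_pt hb hvx
      obtain ⟨b1, b2, b3⟩ := arc_pt ((χ b).mapsTo hb) hvx'
      exact ⟨fun b' => (a1 b').trans (b1 b').symm, fun j => (a2 j).trans (b2 j).symm,
        fun c => (a3 c).trans (b3 c).symm, sarc b x hb⟩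
  · obtain ⟨⟨j, hj⟩, hxj⟩ := mem_iUnion.1 hx
    rw [g2 j hj x hxj]
    obtain ⟨v, hvj⟩ := exists_vert_tile (K := K) j
    exact ⟨fun _ => Iff.rfl, fun _ => Iff.rfl, fun _ => Iff.rfl,
      key (K.tile j) (K.tball j).isPreconnected (hR.off_tile j hj) (hA.off_tile j hj) v hvj x hxj⟩
  · obtain ⟨⟨c, hc⟩, hxc⟩ := mem_iUnion.1 hx
    rw [g3 c hc x hxc]
    obtain ⟨v, hvj⟩ := exists_vert_cell (K := K) c
    exact ⟨fun _ => Iff.rfl, fun _ => Iff.rfl, fun _ => Iff.rfl,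
      key (K.cell c) (K.cball c).isPreconnected (hR.off_cell c hc) (hA.off_cell c hc) v hvj x hxc⟩

/-! ### Stage 1: the arcs on the crossed faces -/

/-- the arcs -/
def C1 (K : Cx3 e0 e1 inc qC Ω) (R : Set V) (P : Set B) (j : {j // cr inc P j}) : Set V :=
  K.tile j.1 ∩ frontier R

/-- stage 1 -/
def X1 (K : Cx3 e0 e1 inc qC Ω) (R : Set V) (P : Set B) : Set V := X0 K P ∪ ⋃ j, C1 K R P j

theorem isClosed_C1 (j : {j // cr inc P j}) : IsClosed (C1 K R P j) :=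
  (K.tball j.1).isClosed.inter isClosed_frontier

theorem lf_C1 : LF (C1 K R P) Ω :=
  (lf_subtype (lf_tile K)).subset fun _ => inter_subset_left

theorem X1_subset : X1 K R P ⊆ Ω := by
  rintro x (h | h)
  · exact X0_subset h
  · obtain ⟨j, hj⟩ := mem_iUnion.1 h; exact tile_subset K _ hj.1

theorem rc_X1 : RC (X1 K R P) Ω := rc_X0.union (rc_iUnion lf_C1 isClosed_C1)

theorem X1_inter (j : {j // cr inc P j}) : C1 K R P j ⊆ X1 K R P :=
  fun _ hx => Or.inr (mem_iUnion.2 ⟨j, hx⟩)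

theorem net_subset_X0 : net K ⊆ X0 K P := subset_union_left

theorem tile_subset_X0 {j : J} (hj : ¬ cr inc P j) : K.tile j ⊆ X0 K P :=
  fun _ hx => Or.inr (Or.inl (mem_iUnion.2 ⟨⟨j, hj⟩, hx⟩))

theorem cell_subset_X0 {c : I} (hc : ¬ crc inc qC P c) : K.cell c ⊆ X0 K P :=
  fun _ hx => Or.inr (Or.inr (mem_iUnion.2 ⟨⟨c, hc⟩, hx⟩))

/-- the part of a face which is on the frontier is inside `X1` -/
theorem tile_frontier_subset_X1 (hR : PreCut K R P p) (j : J) :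
    K.tile j ∩ frontier R ⊆ X1 K R P := by
  intro x hx
  by_cases hj : cr inc P j
  · exact X1_inter ⟨j, hj⟩ hx
  · exact absurd hx.2 (disjoint_left.1 (hR.off_tile j hj) hx.1)

/-- points of a face in `X0`: they are on the net, if the face is crossed -/
theorem mem_net_of_X0 {j : J} (hj : cr inc P j) {x : V} (hx : x ∈ K.tile j) (hx0 : x ∈ X0 K P) :
    x ∈ net K := by
  by_contra hn
  obtain ⟨-, a2, a3⟩ := tile_pt hx hn
  rcases hx0 with h | h | h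
  · exact hn h
  · obtain ⟨⟨j', hj'⟩, hxj⟩ := mem_iUnion.1 h
    rw [(a2 j').1 hxj] at hj'
    exact hj' hj
  · obtain ⟨⟨c, hc⟩, hxc⟩ := mem_iUnion.1 h
    exact hc ⟨j, (a3 c).1 hxc, hj⟩

theorem C1_inter_X0 (hR : PreCut K R P p) {j : J} {b b' : B}
    (hj : {b | inc b j ∧ b ∈ P} = {b, b'}) :
    K.tile j ∩ frontier R ∩ X0 K P = {p b, p b'} := by
  have hb : b ∈ {b | inc b j ∧ b ∈ P} := by rw [hj]; exact Or.inl rfl
  have hb' : b' ∈ {b | inc b j ∧ b ∈ P} := by rw [hj]; exact Or.inr rfl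
  apply Subset.antisymm
  · rintro x ⟨⟨hx, hf⟩, hx0⟩
    have hn := mem_net_of_X0 (cr_of hb.1 hb.2) hx hx0
    obtain ⟨b1, hb1⟩ := mem_iUnion.1 hn
    obtain ⟨b2, hb2, hxb2⟩ := mem_iUnion₂.1 (K.tile_arc j b1 ⟨hx, hb1⟩)
    obtain ⟨hP, hxp⟩ := hR.off_arc hxb2 hf
    have : b2 ∈ ({b, b'} : Set B) := hj ▸ (⟨hb2, hP⟩ : b2 ∈ {b | inc b j ∧ b ∈ P})
    rcases this with rfl | h
    · exact Or.inl hxp
    · have h : b2 = b' := h
      subst h; exact Or.inr hxp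
  · rintro x (hx | hx)
    · have hx : x = p b := hx
      subst hx
      have := hR.mem_arc hb.2
      exact ⟨⟨K.toCx2.arc_subset_tile hb.1 this.1, this.2⟩,
        net_subset_X0 (mem_iUnion.2 ⟨b, this.1⟩)⟩
    · have hx : x = p b' := hx
      subst hx
      have := hR.mem_arc hb'.2
      exact ⟨⟨K.toCx2.arc_subset_tile hb'.1 this.1, this.2⟩,
        net_subset_X0 (mem_iUnion.2 ⟨b', this.1⟩)⟩

theorem exists_pair (hP : Pat inc P) {j : J} (hj : cr inc P j) :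
    ∃ b b', b ≠ b' ∧ {b | inc b j ∧ b ∈ P} = {b, b'} := (hP.two j).resolve_left hj

theorem exists_k1 (hP : Pat inc P) (hR : PreCut K R P p) (hA : PreCut K A P q)
    (χ : (b : B) → ConHomeo (K.arc b) (K.arc b))
    (h3 : ∀ b ∈ P, (χ b).toFun (p b) = q b)
    (φ : ConHomeo (X0 K P) (X0 K P)) (hφ : ∀ b, ∀ x ∈ K.arc b, φ.toFun x = (χ b).toFun x)
    (hres : Resp K R A φ) :
    ∃ ψ : ConHomeo (X1 K R P) (X1 K A P), EqOn ψ.toFun φ.toFun (X0 K P) ∧ Resp K R A ψ := by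
  choose b b' hne hbb using fun j : {j // cr inc P j} => exists_pair hP j.2
  have hin : ∀ j : {j // cr inc P j}, b j ∈ P ∧ b' j ∈ P := fun j =>
    ⟨((hbb j).symm ▸ (Or.inl rfl : b j ∈ ({b j, b' j} : Set B)) :
      b j ∈ {b | inc b j.1 ∧ b ∈ P}).2,
     ((hbb j).symm ▸ (Or.inr rfl : b' j ∈ ({b j, b' j} : Set B)) :
      b' j ∈ {b | inc b j.1 ∧ b ∈ P}).2⟩
  have hd : ∀ (R : Set V) (i j : {j // cr inc P j}), i ≠ j → C1 K R P i ∩ C1 K R P j ⊆ X0 K P := by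
    intro R i j hij x hx
    exact net_subset_X0 (K.tile_tile i.1 j.1 (fun h => hij (Subtype.ext h)) ⟨hx.1.1, hx.2.1⟩)
  have hval : ∀ c ∈ P, φ.toFun (p c) = q c := fun c hc => by
    rw [hφ c _ (hR.mem_arc hc).1, h3 c hc]
  obtain ⟨ψ, hψ, hψ'⟩ := ConHomeo.exists_extend_cells φ (fun _ : {j // cr inc P j} => 1)
    (C1 K R P) (fun j => {p (b j), p (b' j)}) (C1 K A P) (fun j => {q (b j), q (b' j)})
    (fun j => hR.arc j.1 _ _ (hne j) (hbb j)) (fun j => hA.arc j.1 _ _ (hne j) (hbb j))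
    (fun j => by rw [image_pair, hval _ (hin j).1, hval _ (hin j).2])
    (fun j => C1_inter_X0 hR (hbb j)) (fun j => C1_inter_X0 hA (hbb j)) (hd R) (hd A)
    (fun z hz => rc_X0 z (X1_subset hz)) (fun z hz => rc_X0 z (X1_subset hz))
    (fun z hz => lf_C1 z (X1_subset hz)) (fun z hz => lf_C1 z (X1_subset hz))
  refine ⟨ψ, hψ, hres.extend hψ hψ' ?_⟩
  intro j x hx hx0 y hy hy0
  exact tp_tile hR.closed hA.closed hx.1 (fun h => hx0 (net_subset_X0 h)) hy.1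
    (fun h => hy0 (net_subset_X0 h)) (Or.inl ⟨hx.2, hy.2⟩)


/-! ### Stages 2 and 3 -/

/-- second part of the structure -/
structure FullCut (K : Cx3 e0 e1 inc qC Ω) (R : Set V) (P : Set B) (p : B → V) : Prop
    extends PreCut K R P p where
  half : ∀ j, cr inc P j → ∀ s, ConBall 2 (K.tile j ∩ side R s)
    ((K.toCx2.bd j ∩ side R s) ∪ (K.tile j ∩ frontier R))
  disc : ∀ c, crc inc qC P c → ConBall 2 (K.cell c ∩ frontier R)
    (⋃ j ∈ {j | qC j c}, K.tile j ∩ frontier R)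
  hcell : ∀ c, crc inc qC P c → ∀ s, ConBall 3 (K.cell c ∩ side R s)
    ((⋃ j ∈ {j | qC j c}, K.tile j ∩ side R s) ∪ (K.cell c ∩ frontier R))

/-- half faces and discs -/
def C2 (K : Cx3 e0 e1 inc qC Ω) (R : Set V) (P : Set B) :
    ({j // cr inc P j} × Bool) ⊕ {c // crc inc qC P c} → Set V :=
  Sum.elim (fun i => K.tile i.1.1 ∩ side R i.2) fun c => K.cell c.1 ∩ frontier R

/-- the boundaries -/
def B2 (K : Cx3 e0 e1 inc qC Ω) (R : Set V) (P : Set B) :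
    ({j // cr inc P j} × Bool) ⊕ {c // crc inc qC P c} → Set V :=
  Sum.elim (fun i => (K.toCx2.bd i.1.1 ∩ side R i.2) ∪ (K.tile i.1.1 ∩ frontier R))
    fun c => ⋃ j ∈ {j | qC j c.1}, K.tile j ∩ frontier R

/-- stage 2 -/
def X2 (K : Cx3 e0 e1 inc qC Ω) (R : Set V) (P : Set B) : Set V := X1 K R P ∪ ⋃ i, C2 K R P i

theorem isClosed_C2 (hR : IsClosed R) (i) : IsClosed (C2 K R P i) := by
  rcases i with i | c
  · exact (K.tball _).isClosed.inter (isClosed_side hR _)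
  · exact (K.cball _).isClosed.inter isClosed_frontier

theorem lf_C2 : LF (C2 K R P) Ω :=
  lf_sum (lf_prod_bool (lf_subtype (lf_tile K)) fun _ _ => inter_subset_left)
    ((lf_subtype K.clf).subset fun _ => inter_subset_left)

theorem X2_subset : X2 K R P ⊆ Ω := by
  rintro x (h | h)
  · exact X1_subset h
  · obtain ⟨i | c, hi⟩ := mem_iUnion.1 h
    · exact tile_subset K _ hi.1
    · exact cell_subset K _ hi.1

theorem rc_X2 (hR : IsClosed R) : RC (X2 K R P) Ω :=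
  rc_X1.union (rc_iUnion lf_C2 (isClosed_C2 hR))

theorem X0_subset_X1 : X0 K P ⊆ X1 K R P := subset_union_left

theorem X1_subset_X2 : X1 K R P ⊆ X2 K R P := subset_union_left

/-- points of a crossed face in `X1` -/
theorem X1_tile {j : J} (hj : cr inc P j) {x : V} (hx : x ∈ K.tile j) (hx1 : x ∈ X1 K R P) :
    x ∈ net K ∨ x ∈ frontier R := by
  rcases hx1 with h | h
  · exact Or.inl (mem_net_of_X0 hj hx h)
  · obtain ⟨i, hi⟩ := mem_iUnion.1 h
    exact Or.inr hi.2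

/-- points of a crossed cell in `X1` -/
theorem X1_cell {c : I} (hc : crc inc qC P c) {x : V} (hx : x ∈ K.cell c) (hx1 : x ∈ X1 K R P) :
    x ∈ sk2 K := by
  by_contra hn
  obtain ⟨-, a2, a3⟩ := cell_pt hx hn
  rcases hx1 with (h | h | h) | h
  · exact hn (net_subset_sk2 K h)
  · obtain ⟨j, hxj⟩ := mem_iUnion.1 h
    exact a2 _ hxj
  · obtain ⟨⟨c', hc'⟩, hxc⟩ := mem_iUnion.1 h
    rw [(a3 c').1 hxc] at hc'
    exact hc' hc
  · obtain ⟨j, hxj⟩ := mem_iUnion.1 h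
    exact a2 _ hxj.1

theorem C2_inter_X1 (hR : PreCut K R P p) (i) : C2 K R P i ∩ X1 K R P = B2 K R P i := by
  rcases i with ⟨⟨j, hj⟩, s⟩ | ⟨c, hc⟩
  · show K.tile j ∩ side R s ∩ X1 K R P = (K.toCx2.bd j ∩ side R s) ∪ (K.tile j ∩ frontier R)
    apply Subset.antisymm
    · rintro x ⟨⟨hx, hs⟩, hx1⟩
      rcases X1_tile hj hx hx1 with h | h
      · exact Or.inl ⟨tile_inter_net (K := K) j ▸ ⟨hx, h⟩, hs⟩
      · exact Or.inr ⟨hx, h⟩
    · rintro x (⟨hx, hs⟩ | ⟨hx, hf⟩)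
      · have h : x ∈ K.tile j ∩ net K := (tile_inter_net (K := K) j).symm ▸ hx
        exact ⟨⟨h.1, hs⟩, X0_subset_X1 (net_subset_X0 h.2)⟩
      · exact ⟨⟨hx, frontier_subset_side hR.closed s hf⟩, tile_frontier_subset_X1 hR j ⟨hx, hf⟩⟩
  · show K.cell c ∩ frontier R ∩ X1 K R P = ⋃ j ∈ {j | qC j c}, K.tile j ∩ frontier R
    apply Subset.antisymm
    · rintro x ⟨⟨hx, hf⟩, hx1⟩
      have h : x ∈ cbd K c := cell_inter_sk2 (K := K) c ▸ ⟨hx, X1_cell hc hx hx1⟩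
      obtain ⟨j, hj, hxj⟩ := mem_iUnion₂.1 h
      exact mem_iUnion₂.2 ⟨j, hj, hxj, hf⟩
    · intro x hx
      obtain ⟨j, hj, hxj, hf⟩ := mem_iUnion₂.1 hx
      exact ⟨⟨tile_subset_cell K hj hxj, hf⟩, tile_frontier_subset_X1 hR j ⟨hxj, hf⟩⟩

theorem cell_frontier_sk2 (hR : PreCut K R P p) {x : V} (hx : x ∈ sk2 K) (hf : x ∈ frontier R) :
    x ∈ X1 K R P := by
  obtain ⟨j, hj⟩ := mem_iUnion.1 hx
  exact tile_frontier_subset_X1 hR j ⟨hj, hf⟩

theorem C2_disj (hR : PreCut K R P p) (i i') (hne : i ≠ i') :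
    C2 K R P i ∩ C2 K R P i' ⊆ X1 K R P := by
  rcases i with ⟨⟨j, hj⟩, s⟩ | ⟨c, hc⟩ <;> rcases i' with ⟨⟨j', hj'⟩, s'⟩ | ⟨c', hc'⟩
  · rintro x ⟨⟨hx, hs⟩, ⟨hx', hs'⟩⟩
    by_cases hjj : j = j'
    · subst hjj
      have hss : s ≠ s' := by rintro rfl; exact hne rfl
      exact tile_frontier_subset_X1 hR j ⟨hx, mem_frontier_of_sides hR.closed hss hs hs'⟩
    · exact X0_subset_X1 (net_subset_X0 (K.tile_tile j j' hjj ⟨hx, hx'⟩))
  · rintro x ⟨⟨hx, hs⟩, ⟨hx', hs'⟩⟩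
    exact tile_frontier_subset_X1 hR j ⟨hx, hs'⟩
  · rintro x ⟨⟨hx, hs⟩, ⟨hx', hs'⟩⟩
    exact tile_frontier_subset_X1 hR j' ⟨hx', hs⟩
  · rintro x ⟨⟨hx, hs⟩, ⟨hx', hs'⟩⟩
    have hcc : c ≠ c' := by rintro rfl; exact hne rfl
    exact cell_frontier_sk2 hR (K.cell_cell c c' hcc ⟨hx, hx'⟩) hs

/-- the image of the boundaries -/
theorem image_B2 (hR : PreCut K R P p) (hA : PreCut K A P q)
    {φ : ConHomeo (X1 K R P) (X1 K A P)} (hres : Resp K R A φ) (i) :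
    φ.toFun '' B2 K R P i = B2 K A P i := by
  rcases i with ⟨⟨j, hj⟩, s⟩ | ⟨c, hc⟩
  · have hsub : ∀ {R : Set V} {p : B → V}, PreCut K R P p →
        B2 K R P (Sum.inl (⟨j, hj⟩, s)) ⊆ X1 K R P := fun {R p} hR => by
      rw [← C2_inter_X1 hR]; exact inter_subset_right
    have hiff : ∀ {R : Set V} {p : B → V}, PreCut K R P p → ∀ x,
        (x ∈ B2 K R P (Sum.inl (⟨j, hj⟩, s)) ↔
        ((∃ b, inc b j ∧ (tp K R x).1 b) ∧ (tp K R x).2.2.2 s) ∨
          ((tp K R x).2.1 j ∧ ∀ s, (tp K R x).2.2.2 s)) := by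
      intro R p hR x
      constructor
      · rintro (⟨hx, hs⟩ | ⟨hx, hf⟩)
        · obtain ⟨b, hb, hxb⟩ := mem_iUnion₂.1 hx
          exact Or.inl ⟨⟨b, hb, hxb⟩, hs⟩
        · exact Or.inr ⟨hx, fun s => frontier_subset_side hR.closed s hf⟩
      · rintro (⟨⟨b, hb, hxb⟩, hs⟩ | ⟨hx, hf⟩)
        · exact Or.inl ⟨mem_iUnion₂.2 ⟨b, hb, hxb⟩, hs⟩
        · exact Or.inr ⟨hx, mem_frontier_of_sides hR.closed Bool.false_ne_true (hf false)
            (hf true)⟩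
    exact hres.image (fun t => ((∃ b, inc b j ∧ t.1 b) ∧ t.2.2.2 s) ∨ (t.2.1 j ∧ ∀ s, t.2.2.2 s))
      (hsub hR) (hsub hA) (fun x _ => hiff hR x) (fun x _ => hiff hA x)
  · have hsub : ∀ {R : Set V} {p : B → V}, PreCut K R P p →
        B2 K R P (Sum.inr ⟨c, hc⟩) ⊆ X1 K R P := fun {R p} hR => by
      rw [← C2_inter_X1 hR]; exact inter_subset_right
    have hiff : ∀ {R : Set V} {p : B → V}, PreCut K R P p → ∀ x,
        (x ∈ B2 K R P (Sum.inr ⟨c, hc⟩) ↔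
        ∃ j, qC j c ∧ (tp K R x).2.1 j ∧ ∀ s, (tp K R x).2.2.2 s) := by
      intro R p hR x
      constructor
      · intro hx
        obtain ⟨j, hj, hxj, hf⟩ := mem_iUnion₂.1 hx
        exact ⟨j, hj, hxj, fun s => frontier_subset_side hR.closed s hf⟩
      · rintro ⟨j, hj, hxj, hf⟩
        exact mem_iUnion₂.2 ⟨j, hj, hxj, mem_frontier_of_sides hR.closed Bool.false_ne_true
          (hf false) (hf true)⟩
    exact hres.image (fun t => ∃ j, qC j c ∧ t.2.1 j ∧ ∀ s, t.2.2.2 s)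
      (hsub hR) (hsub hA) (fun x _ => hiff hR x) (fun x _ => hiff hA x)

theorem FullCut.ball2 (hR : FullCut K R P p) (i) : ConBall 2 (C2 K R P i) (B2 K R P i) := by
  rcases i with ⟨⟨j, hj⟩, s⟩ | ⟨c, hc⟩
  · exact hR.half j hj s
  · exact hR.disc c hc

theorem exists_k2 (hR : FullCut K R P p) (hA : FullCut K A P q)
    (φ : ConHomeo (X1 K R P) (X1 K A P)) (hres : Resp K R A φ) :
    ∃ ψ : ConHomeo (X2 K R P) (X2 K A P), EqOn ψ.toFun φ.toFun (X1 K R P) ∧ Resp K R A ψ := by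
  obtain ⟨ψ, hψ, hψ'⟩ := ConHomeo.exists_extend_cells φ (fun _ => 2)
    (C2 K R P) (B2 K R P) (C2 K A P) (B2 K A P) hR.ball2 hA.ball2
    (image_B2 hR.toPreCut hA.toPreCut hres)
    (C2_inter_X1 hR.toPreCut) (C2_inter_X1 hA.toPreCut) (C2_disj hR.toPreCut)
    (C2_disj hA.toPreCut)
    (fun z hz => rc_X1 z (X2_subset hz)) (fun z hz => rc_X1 z (X2_subset hz))
    (fun z hz => lf_C2 z (X2_subset hz)) (fun z hz => lf_C2 z (X2_subset hz))
  refine ⟨ψ, hψ, hres.extend hψ hψ' ?_⟩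
  rintro (⟨⟨j, hj⟩, s⟩ | ⟨c, hc⟩) x hx hx0 y hy hy0
  · exact tp_tile hR.closed hA.closed hx.1 (fun h => hx0 (X0_subset_X1 (net_subset_X0 h))) hy.1
      (fun h => hy0 (X0_subset_X1 (net_subset_X0 h)))
      (Or.inr ⟨fun h => hx0 (X1_inter ⟨j, hj⟩ ⟨hx.1, h⟩), fun h => hy0 (X1_inter ⟨j, hj⟩ ⟨hy.1, h⟩),
        s, hx.2, hy.2⟩)
  · exact tp_cell hR.closed hA.closed hx.1 (fun h => hx0 (cell_frontier_sk2 hR.toPreCut h hx.2))
      hy.1 (fun h => hy0 (cell_frontier_sk2 hA.toPreCut h hy.2)) (Or.inl ⟨hx.2, hy.2⟩)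

/-- half cells -/
def C3 (K : Cx3 e0 e1 inc qC Ω) (R : Set V) (P : Set B) (i : {c // crc inc qC P c} × Bool) :
    Set V := K.cell i.1.1 ∩ side R i.2

/-- the boundaries -/
def B3 (K : Cx3 e0 e1 inc qC Ω) (R : Set V) (P : Set B) (i : {c // crc inc qC P c} × Bool) :
    Set V := (⋃ j ∈ {j | qC j i.1.1}, K.tile j ∩ side R i.2) ∪ (K.cell i.1.1 ∩ frontier R)

theorem lf_C3 : LF (C3 K R P) Ω :=
  lf_prod_bool (lf_subtype K.clf) fun _ _ => inter_subset_left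

theorem sk2_subset_X2 : sk2 K ⊆ X2 K R P := by
  intro x hx
  obtain ⟨j, hxj⟩ := mem_iUnion.1 hx
  by_cases hj : cr inc P j
  · obtain ⟨s, hs⟩ := exists_side R x
    exact Or.inr (mem_iUnion.2 ⟨Sum.inl (⟨j, hj⟩, s), hxj, hs⟩)
  · exact X1_subset_X2 (X0_subset_X1 (tile_subset_X0 hj hxj))

theorem cell_frontier_subset_X2 (hR : PreCut K R P p) (c : I) :
    K.cell c ∩ frontier R ⊆ X2 K R P := by
  intro x hx
  by_cases hc : crc inc qC P c
  · exact Or.inr (mem_iUnion.2 ⟨Sum.inr ⟨c, hc⟩, hx⟩)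
  · exact absurd hx.2 (disjoint_left.1 (hR.off_cell c hc) hx.1)

theorem X2_cell {c : I} (hc : crc inc qC P c) {x : V} (hx : x ∈ K.cell c) (hx2 : x ∈ X2 K R P) :
    x ∈ sk2 K ∨ x ∈ frontier R := by
  rcases hx2 with h | h
  · exact Or.inl (X1_cell hc hx h)
  · obtain ⟨i | c', hi⟩ := mem_iUnion.1 h
    · exact Or.inl (mem_iUnion.2 ⟨_, hi.1⟩)
    · exact Or.inr hi.2

theorem C3_inter_X2 (hR : PreCut K R P p) (i) : C3 K R P i ∩ X2 K R P = B3 K R P i := by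
  obtain ⟨⟨c, hc⟩, s⟩ := i
  show K.cell c ∩ side R s ∩ X2 K R P =
    (⋃ j ∈ {j | qC j c}, K.tile j ∩ side R s) ∪ (K.cell c ∩ frontier R)
  apply Subset.antisymm
  · rintro x ⟨⟨hx, hs⟩, hx2⟩
    rcases X2_cell hc hx hx2 with h | h
    · have h' : x ∈ cbd K c := cell_inter_sk2 (K := K) c ▸ ⟨hx, h⟩
      obtain ⟨j, hj, hxj⟩ := mem_iUnion₂.1 h'
      exact Or.inl (mem_iUnion₂.2 ⟨j, hj, hxj, hs⟩)
    · exact Or.inr ⟨hx, h⟩
  · rintro x (hx | ⟨hx, hf⟩)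
    · obtain ⟨j, hj, hxj, hs⟩ := mem_iUnion₂.1 hx
      exact ⟨⟨tile_subset_cell K hj hxj, hs⟩, sk2_subset_X2 (mem_iUnion.2 ⟨j, hxj⟩)⟩
    · exact ⟨⟨hx, frontier_subset_side hR.closed s hf⟩, cell_frontier_subset_X2 hR c ⟨hx, hf⟩⟩

theorem C3_disj (hR : PreCut K R P p) (i i') (hne : i ≠ i') :
    C3 K R P i ∩ C3 K R P i' ⊆ X2 K R P := by
  obtain ⟨⟨c, hc⟩, s⟩ := i
  obtain ⟨⟨c', hc'⟩, s'⟩ := i'
  rintro x ⟨⟨hx, hs⟩, ⟨hx', hs'⟩⟩
  by_cases hcc : c = c'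
  · subst hcc
    have hss : s ≠ s' := by rintro rfl; exact hne rfl
    exact cell_frontier_subset_X2 hR c ⟨hx, mem_frontier_of_sides hR.closed hss hs hs'⟩
  · exact sk2_subset_X2 (K.cell_cell c c' hcc ⟨hx, hx'⟩)

theorem image_B3 (hR : PreCut K R P p) (hA : PreCut K A P q)
    {φ : ConHomeo (X2 K R P) (X2 K A P)} (hres : Resp K R A φ) (i) :
    φ.toFun '' B3 K R P i = B3 K A P i := by
  obtain ⟨⟨c, hc⟩, s⟩ := i
  have hsub : ∀ {R : Set V} {p : B → V}, PreCut K R P p →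
      B3 K R P (⟨c, hc⟩, s) ⊆ X2 K R P := fun {R p} hR => by
    rw [← C3_inter_X2 hR]; exact inter_subset_right
  have hiff : ∀ {R : Set V} {p : B → V}, PreCut K R P p → ∀ x,
      (x ∈ B3 K R P (⟨c, hc⟩, s) ↔
      (∃ j, qC j c ∧ (tp K R x).2.1 j ∧ (tp K R x).2.2.2 s) ∨
        ((tp K R x).2.2.1 c ∧ ∀ s, (tp K R x).2.2.2 s)) := by
    intro R p hR x
    constructor
    · rintro (hx | ⟨hx, hf⟩)
      · obtain ⟨j, hj, hxj, hs⟩ := mem_iUnion₂.1 hx
        exact Or.inl ⟨j, hj, hxj, hs⟩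
      · exact Or.inr ⟨hx, fun s => frontier_subset_side hR.closed s hf⟩
    · rintro (⟨j, hj, hxj, hs⟩ | ⟨hx, hf⟩)
      · exact Or.inl (mem_iUnion₂.2 ⟨j, hj, hxj, hs⟩)
      · exact Or.inr ⟨hx, mem_frontier_of_sides hR.closed Bool.false_ne_true (hf false)
          (hf true)⟩
  exact hres.image (fun t => (∃ j, qC j c ∧ t.2.1 j ∧ t.2.2.2 s) ∨ (t.2.2.1 c ∧ ∀ s, t.2.2.2 s))
    (hsub hR) (hsub hA) (fun x _ => hiff hR x) (fun x _ => hiff hA x)

theorem X3_eq : X2 K R P ∪ ⋃ i, C3 K R P i = Ω := by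
  apply Subset.antisymm
  · rintro x (h | h)
    · exact X2_subset h
    · obtain ⟨i, hi⟩ := mem_iUnion.1 h
      exact cell_subset K _ hi.1
  · intro x hx
    rw [← K.cover] at hx
    obtain ⟨c, hxc⟩ := mem_iUnion.1 hx
    by_cases hc : crc inc qC P c
    · obtain ⟨s, hs⟩ := exists_side R x
      exact Or.inr (mem_iUnion.2 ⟨(⟨c, hc⟩, s), hxc, hs⟩)
    · exact Or.inl (X1_subset_X2 (X0_subset_X1 (cell_subset_X0 hc hxc)))

theorem exists_k3 (hR : FullCut K R P p) (hA : FullCut K A P q)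
    (φ : ConHomeo (X2 K R P) (X2 K A P)) (hres : Resp K R A φ) :
    ∃ ψ : ConHomeo Ω Ω, EqOn ψ.toFun φ.toFun (X2 K R P) ∧ Resp K R A ψ := by
  have hsub : ∀ {R : Set V} {z : V}, z ∈ X2 K R P ∪ ⋃ i, C3 K R P i → z ∈ Ω := fun h => by
    rwa [X3_eq] at h
  obtain ⟨ψ, hψ, hψ'⟩ := ConHomeo.exists_extend_cells φ (fun _ => 3)
    (C3 K R P) (B3 K R P) (C3 K A P) (B3 K A P) (fun i => hR.hcell _ i.1.2 _)
    (fun i => hA.hcell _ i.1.2 _)
    (image_B3 hR.toPreCut hA.toPreCut hres)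
    (C3_inter_X2 hR.toPreCut) (C3_inter_X2 hA.toPreCut) (C3_disj hR.toPreCut)
    (C3_disj hA.toPreCut)
    (fun z hz => rc_X2 hR.closed z (hsub hz)) (fun z hz => rc_X2 hA.closed z (hsub hz))
    (fun z hz => lf_C3 z (hsub hz)) (fun z hz => lf_C3 z (hsub hz))
  have hres' : Resp K R A ψ := by
    refine hres.extend hψ hψ' ?_
    rintro ⟨⟨c, hc⟩, s⟩ x hx hx0 y hy hy0
    exact tp_cell hR.closed hA.closed hx.1 (fun h => hx0 (sk2_subset_X2 h)) hy.1
      (fun h => hy0 (sk2_subset_X2 h))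
      (Or.inr ⟨fun h => hx0 (cell_frontier_subset_X2 hR.toPreCut c ⟨hx.1, h⟩),
        fun h => hy0 (cell_frontier_subset_X2 hA.toPreCut c ⟨hy.1, h⟩), s, hx.2, hy.2⟩)
  refine ⟨ψ.cast X3_eq X3_eq, hψ, fun x hx => hres' x (by rw [X3_eq]; exact hx)⟩

/-- **Isomorphism of two cuts with the same pattern.** -/
theorem exists_iso (hP : Pat inc P) (hR : FullCut K R P p) (hA : FullCut K A P q)
    (hv : ∀ v, K.y v ∈ interior R ↔ K.y v ∈ interior A)
    (χ : (b : B) → ConHomeo (K.arc b) (K.arc b))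
    (h0 : ∀ b, (χ b).toFun (K.y (e0 b)) = K.y (e0 b))
    (h1 : ∀ b, (χ b).toFun (K.y (e1 b)) = K.y (e1 b))
    (h2 : ∀ b ∉ P, ∀ x ∈ K.arc b, (χ b).toFun x = x)
    (h3 : ∀ b ∈ P, (χ b).toFun (p b) = q b) :
    ∃ φ : ConHomeo Ω Ω, (∀ b, ∀ x ∈ K.arc b, φ.toFun x = (χ b).toFun x) ∧
      (∀ j, φ.toFun '' K.tile j = K.tile j) ∧ (∀ c, φ.toFun '' K.cell c = K.cell c) ∧
      (∀ c, Disjoint (K.cell c) (frontier R) → ∀ x ∈ K.cell c, φ.toFun x = x) ∧
      φ.toFun '' R = A ∧ φ.toFun '' frontier R = frontier A := by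
  obtain ⟨k0, a1, a2, a3, a4⟩ := exists_k0 hR.toPreCut hA.toPreCut hv χ h0 h1 h2 h3
  obtain ⟨k1, b1, b2⟩ := exists_k1 hP hR.toPreCut hA.toPreCut χ h3 k0 a1 a4
  obtain ⟨k2, c1, c2⟩ := exists_k2 hR hA k1 b2
  obtain ⟨φ, d1, d2⟩ := exists_k3 hR hA k2 c2
  have hval : ∀ x ∈ X0 K P, φ.toFun x = k0.toFun x := fun x hx => by
    rw [d1 (X1_subset_X2 (X0_subset_X1 hx)), c1 (X0_subset_X1 hx), b1 hx]
  refine ⟨φ, fun b x hx => ?_, fun j => ?_, fun c => ?_, fun c hc x hx => ?_, ?_, ?_⟩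
  · rw [hval x (net_subset_X0 (mem_iUnion.2 ⟨b, hx⟩)), a1 b x hx]
  · exact d2.image (fun t => t.2.1 j) (tile_subset K j) (tile_subset K j) (fun _ _ => Iff.rfl)
      (fun _ _ => Iff.rfl)
  · exact d2.image (fun t => t.2.2.1 c) (cell_subset K c) (cell_subset K c) (fun _ _ => Iff.rfl)
      (fun _ _ => Iff.rfl)
  · have hcc : ¬ crc inc qC P c := by
      rintro ⟨j, hj, hcr⟩
      obtain ⟨b, b', hne, hbb⟩ := exists_pair hP hcr
      have hb : b ∈ {b | inc b j ∧ b ∈ P} := by rw [hbb]; exact Or.inl rfl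
      have := hR.mem_arc hb.2
      exact disjoint_left.1 hc (tile_subset_cell K hj (K.toCx2.arc_subset_tile hb.1 this.1)) this.2
    rw [hval x (cell_subset_X0 hcc hx), a3 c hcc x hx]
  · exact d2.image (fun t => t.2.2.2 true) hR.sub hA.sub (fun _ _ => Iff.rfl)
      (fun _ _ => Iff.rfl)
  · have hiff : ∀ {R : Set V}, IsClosed R → ∀ x, (x ∈ frontier R ↔
        ∀ s, (tp K R x).2.2.2 s) := fun {R} hR x =>
      ⟨fun h s => frontier_subset_side hR s h, fun h =>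
        mem_frontier_of_sides hR Bool.false_ne_true (h false) (h true)⟩
    exact d2.image (fun t => ∀ s, t.2.2.2 s) (hR.closed.frontier_subset.trans hR.sub)
      (hA.closed.frontier_subset.trans hA.sub) (fun x _ => hiff hR.closed x)
      (fun x _ => hiff hA.closed x)

end P073.GB932
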