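import Vale.Agent.P073.GB932.Lid

/-!
# P073, block GB, lids: two thin box cells over a planar rectangle are split off
-/

open Set Metric Topology Filter

namespace P073.GB932

open P073 P073.PR720 P073.GB73
open Vale.Agent.P073.St (V)

variable {Vx B J I : Type} {e0 e1 : B → Vx} {inc : B → J → Prop} {qC : J → I → Prop} {Ω : Set V}

section

variable {k : Fin 3} {c : ℝ} {q0 q1 : V}

theorem fc_flip (h0 : q0 k ≤ c) (h1 : c ≤ q1 k) :
    fc k c (Function.update q0 k c) q1 = fc k c q0 (Function.update q1 k c) := by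
  ext x
  constructor
  · rintro ⟨hx, hxc⟩
    refine ⟨⟨fun i => ?_, fun i => ?_⟩, hxc⟩
    · by_cases hi : i = k
      · subst hi; rw [hxc]; exact h0
      · have := hx.1 i; rwa [Function.update_of_ne hi] at this
    · by_cases hi : i = k
      · subst hi; rw [hxc, Function.update_self]
      · rw [Function.update_of_ne hi]; exact hx.2 i
  · rintro ⟨hx, hxc⟩
    refine ⟨⟨fun i => ?_, fun i => ?_⟩, hxc⟩
    · by_cases hi : i = k
      · subst hi; rw [hxc, Function.update_self]
      · rw [Function.update_of_ne hi]; exact hx.1 i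
    · by_cases hi : i = k
      · subst hi; rw [hxc]; exact h1
      · have := hx.2 i; rwa [Function.update_of_ne hi] at this

theorem rm_flip (h0 : q0 k ≤ c) (h1 : c ≤ q1 k) :
    rm k c (Function.update q0 k c) q1 = rm k c q0 (Function.update q1 k c) := by
  have e : ∀ n0 n1 : V, rm k c n0 n1 =
      {x | x ∈ fc k c n0 n1 ∧ ∃ i, i ≠ k ∧ (x i = n0 i ∨ x i = n1 i)} := by
    intro n0 n1
    ext x
    exact ⟨fun h => ⟨⟨h.1, h.2.1⟩, h.2.2⟩, fun h => ⟨h.1.1, h.1.2, h.2⟩⟩
  rw [e, e, fc_flip h0 h1]
  ext x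
  refine and_congr_right fun _ => exists_congr fun i => and_congr_right fun hi => ?_
  rw [Function.update_of_ne hi, Function.update_of_ne hi]

theorem Icc_cut (h0 : q0 k ≤ c) (h1 : c ≤ q1 k) :
    Icc q0 q1 = Icc (Function.update q0 k c) q1 ∪ Icc q0 (Function.update q1 k c) := by
  ext x
  constructor
  · intro hx
    rcases le_total c (x k) with h | h
    · left
      refine ⟨fun i => ?_, hx.2⟩
      by_cases hi : i = k
      · subst hi; rw [Function.update_self]; exact h
      · rw [Function.update_of_ne hi]; exact hx.1 i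
    · right
      refine ⟨hx.1, fun i => ?_⟩
      by_cases hi : i = k
      · subst hi; rw [Function.update_self]; exact h
      · rw [Function.update_of_ne hi]; exact hx.2 i
  · rintro (hx | hx)
    · refine ⟨fun i => ?_, hx.2⟩
      have := hx.1 i
      by_cases hi : i = k
      · subst hi; rw [Function.update_self] at this; exact h0.trans this
      · rwa [Function.update_of_ne hi] at this
    · refine ⟨hx.1, fun i => ?_⟩
      have := hx.2 i
      by_cases hi : i = k
      · subst hi; rw [Function.update_self] at this; exact this.trans h1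
      · rwa [Function.update_of_ne hi] at this

/-- the upper lid misses the open box -/
theorem ld_up_interior (h0 : q0 k < c) (_h1 : c < q1 k) :
    Disjoint (ld k c (Function.update q0 k c) q1) (interior (Icc q0 q1)) := by
  rw [disjoint_left, interior_Icc_pi']
  rintro x ⟨hx, ⟨i, hi, h⟩ | ⟨h, h'⟩⟩ hx'
  · rw [Function.update_of_ne hi] at h
    rcases h with h | h
    · exact (hx' i).1.ne' h
    · exact (hx' i).2.ne h
  · rcases h' with h' | h'
    · rw [Function.update_self] at h'; exact h h'
    · exact (hx' k).2.ne h'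

theorem ld_dn_interior (_h0 : q0 k < c) (h1 : c < q1 k) :
    Disjoint (ld k c q0 (Function.update q1 k c)) (interior (Icc q0 q1)) := by
  rw [disjoint_left, interior_Icc_pi']
  rintro x ⟨hx, ⟨i, hi, h⟩ | ⟨h, h'⟩⟩ hx'
  · rw [Function.update_of_ne hi] at h
    rcases h with h | h
    · exact (hx' i).1.ne' h
    · exact (hx' i).2.ne h
  · rcases h' with h' | h'
    · exact (hx' k).1.ne' h'
    · rw [Function.update_self] at h'; exact h h'

end

/-- a cell which meets an open set covered by two cells is one of them -/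
theorem eq_of_meets (K : Cx3 e0 e1 inc qC Ω) {U : Set V} (hUo : IsOpen U) {cu cd d : I}
    (hU : U ⊆ K.cell cu ∪ K.cell cd) (hd : (K.cell d ∩ U).Nonempty) : d = cu ∨ d = cd := by
  by_contra hcon
  push Not at hcon
  obtain ⟨x, hx, hxU⟩ := hd
  obtain ⟨y, hyU, hy⟩ := mem_closure_iff_nhds.1 (PT.subset_closure_int (K.cball d) hx) U
    (hUo.mem_nhds hxU)
  have : y ∈ sk2 K := by
    rcases hU hyU with h | h
    · exact K.cell_cell d cu hcon.1 ⟨hy.1, h⟩
    · exact K.cell_cell d cd hcon.2 ⟨hy.1, h⟩
  apply hy.2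
  have h3 : y ∈ K.cell d ∩ sk2 K := ⟨hy.1, this⟩
  rw [cell_inter_sk2] at h3
  exact h3

/-- **Lens**: two thin boxes are split off, above and below the rectangle
`x k = c`, `q0 i ≤ x i ≤ q1 i`. -/
theorem exists_lens (K : Cx3 e0 e1 inc qC Ω) {k : Fin 3} {c : ℝ} {lu hu lw hw : V} {cu cd : I}
    (hne : cu ≠ cd) (hcu : K.cell cu = Icc lu hu) (hcd : K.cell cd = Icc lw hw) {q0 q1 : V}
    (Au : Att k c lu hu (Function.update q0 k c) q1)
    (Ad : Att k c lw hw q0 (Function.update q1 k c)) (h0 : q0 k < c) (h1 : c < q1 k) {T0 : Set J}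
    (hTu : ∀ j ∈ T0, qC j cu) (hTd : ∀ j ∈ T0, qC j cd)
    (hTS : (⋃ j ∈ T0, K.tile j) = fc k c (Function.update q0 k c) q1) {S0 : Set B}
    (hS : S0.Finite) (hS0 : (⋃ b ∈ S0, K.arc b) = rm k c (Function.update q0 k c) q1) :
    ∃ (J' I' : Type) (inc' : B → J' → Prop) (qC' : J' → I' → Prop) (K' : Cx3 e0 e1 inc' qC' Ω)
      (ι : J → J') (cu' cd' : I'), K'.toGraph = K.toGraph ∧ (∀ j, K'.tile (ι j) = K.tile j) ∧
      Function.Injective ι ∧ (∀ b j, inc' b (ι j) ↔ inc b j) ∧ cu' ≠ cd' ∧
      K'.cell cu' = Icc (Function.update q0 k c) q1 ∧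
      K'.cell cd' = Icc q0 (Function.update q1 k c) ∧
      (∀ d, (K'.cell d ∩ interior (Icc q0 q1)).Nonempty → d = cu' ∨ d = cd') ∧
      (∀ j', (K'.tile j' ∩ interior (Icc q0 q1)).Nonempty → ∃ j ∈ T0, j' = ι j) ∧
      (∀ j' b, inc' b j' → j' ∉ range ι → b ∈ S0) ∧
      ∀ Z, Prot K Z → Disjoint Z (Icc q0 q1) → Prot K' Z := by
  classical
  have hcut := Icc_cut (q0 := q0) (q1 := q1) h0.le h1.le
  let H1 := lidData hcu Au hTu hTS hS hS0
  let K1 := H1.split
  have hcd1 : K1.cell (some cd) = Icc lw hw := by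
    have := H1.split_cell_ne (Ne.symm hne)
    exact this.trans hcd
  have hT1 : ∀ j ∈ some '' T0, sQ qC cu T0 j (some cd) := by
    rintro _ ⟨j, hj, rfl⟩
    exact Or.inr ⟨Ne.symm hne, hTd j hj⟩
  have hTS1 : (⋃ j ∈ some '' T0, K1.tile j) = fc k c q0 (Function.update q1 k c) := by
    rw [biUnion_image, ← fc_flip h0.le h1.le, ← hTS]
    rfl
  have hS1 : (⋃ b ∈ S0, K1.arc b) = rm k c q0 (Function.update q1 k c) := by
    rw [← rm_flip h0.le h1.le, ← hS0]
    rfl
  let H2 := lidData (K := K1) hcd1 Ad hT1 hTS1 hS hS1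
  let K2 := H2.split
  have eu : K2.cell (some none) = Icc (Function.update q0 k c) q1 :=
    H2.split_cell_ne (by simp)
  have ed : K2.cell none = Icc q0 (Function.update q1 k c) := rfl
  have hint : interior (Icc q0 q1) ⊆ K2.cell (some none) ∪ K2.cell none := by
    rw [eu, ed, ← hcut]; exact interior_subset
  refine ⟨_, _, _, _, K2, fun j => some (some j), some none, none, rfl, fun _ => rfl, ?_,
    fun _ _ => Iff.rfl, by simp, eu, ed, ?_, ?_, ?_, ?_⟩
  · intro i j h
    exact Option.some.inj (Option.some.inj h)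
  · intro d hd
    exact eq_of_meets K2 isOpen_interior hint hd
  · intro j' hj'
    cases j' with
    | none =>
      exfalso
      obtain ⟨x, hx, hx'⟩ := hj'
      exact disjoint_left.1 (ld_dn_interior h0 h1) hx hx'
    | some j' =>
      cases j' with
      | none =>
        exfalso
        obtain ⟨x, hx, hx'⟩ := hj'
        exact disjoint_left.1 (ld_up_interior h0 h1) hx hx'
      | some j =>
        refine ⟨j, ?_, rfl⟩
        obtain ⟨x, hx, hx'⟩ := hj'
        have hx : x ∈ K.tile j := hx
        obtain ⟨y, hyU, hy⟩ := mem_closure_iff_nhds.1 (PT.subset_closure_int (K.tball j) hx)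
          (interior (Icc q0 q1)) (isOpen_interior.mem_nhds hx')
        have hyn : y ∉ net K := fun hyn => hy.2 (by
          have : y ∈ K.tile j ∩ net K := ⟨hy.1, hyn⟩
          rw [tile_inter_net] at this; exact this)
        have hfr : ∀ c', y ∈ K.cell c' → y ∈ frontier (K.cell c') := by
          intro c' hc'
          rw [frontier_cell, ← cell_inter_sk2]
          exact ⟨hc', mem_iUnion.2 ⟨j, hy.1⟩⟩
        have hyfc : y ∈ fc k c (Function.update q0 k c) q1 := by
          have h2 : y ∈ Icc q0 q1 := interior_subset hyU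
          rw [hcut] at h2
          rcases h2 with h2 | h2
          · rw [← Au.inter_frontier]
            refine ⟨h2, ?_⟩
            rw [← hcu]
            exact hfr cu (by rw [hcu]; exact Au.sub h2)
          · rw [fc_flip h0.le h1.le, ← Ad.inter_frontier]
            refine ⟨h2, ?_⟩
            rw [← hcd]
            exact hfr cd (by rw [hcd]; exact Ad.sub h2)
        rw [← hTS] at hyfc
        obtain ⟨j', hj', hyj'⟩ := mem_iUnion₂.1 hyfc
        have := ((tile_pt hy.1 hyn).2.1 j').1 hyj'
        rw [← this]; exact hj'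
  · intro j' b hb hj'
    cases j' with
    | none => exact hb
    | some j' =>
      cases j' with
      | none => exact hb
      | some j => exact absurd ⟨j, rfl⟩ hj'
  · intro Z hZ hd
    rw [hcut, disjoint_union_right] at hd
    exact H2.prot (H1.prot hZ hd.1) hd.2

end P073.GB932
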