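import Vale.Agent.P073.GB932.Basic

/-!
# P073, block GB: splitting a cell of a complex `Cx3` by a disc

`SplitData.split`: the cell `c` of `K` is cut by a properly embedded disc `D`, whose boundary curve
is a union of net arcs, into `N` and `N'`.  The graph is not changed; there is one more tile, `D`
(`none : Option J`), and one more cell, `N` (`none : Option I`).
-/

open Set Metric Topology Filter

namespace P073.GB932

open P073 P073.PR720 P073.GB73
open Vale.Agent.P073.St (V)

variable {Vx B J I : Type} {e0 e1 : B → Vx} {inc : B → J → Prop} {qC : J → I → Prop} {Ω : Set V}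

/-- the incidences of arcs and tiles after the splitting -/
def sInc (inc : B → J → Prop) (S0 : Set B) (b : B) : Option J → Prop
  | none => b ∈ S0
  | some j => inc b j

/-- the incidences of tiles and cells after the splitting -/
def sQ (qC : J → I → Prop) (c : I) (T0 : Set J) : Option J → Option I → Prop
  | none, none => True
  | none, some d => d = c
  | some j, none => j ∈ T0
  | some j, some d => (d = c ∧ qC j c ∧ j ∉ T0) ∨ (d ≠ c ∧ qC j d)

/-- The cell `c` of `K` is cut by the disc `D` into `N` and `N'`. The boundary curve of `D` is the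
union of the arcs in `S0`; the tiles in `T0` belong to `N`, the other ones to `N'`. -/
structure SplitData (K : Cx3 e0 e1 inc qC Ω) (c : I) (S0 : Set B) (T0 : Set J) (D N N' : Set V) :
    Prop where
  disc : ConBall 2 D (⋃ b ∈ S0, K.arc b)
  fin : S0.Finite
  sub : ∀ j ∈ T0, qC j c
  ball : ConBall 3 N (D ∪ ⋃ j ∈ T0, K.tile j)
  ball' : ConBall 3 N' (D ∪ ⋃ j ∈ {j | qC j c ∧ j ∉ T0}, K.tile j)
  union : N ∪ N' = K.cell c
  inter : N ∩ N' ⊆ D
  prop : ∀ j, qC j c → D ∩ K.tile j ⊆ ⋃ b ∈ S0, K.arc b

namespace SplitData

variable {K : Cx3 e0 e1 inc qC Ω} {c : I} {S0 : Set B} {T0 : Set J} {D N N' : Set V}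

theorem N_sub (H : SplitData K c S0 T0 D N N') : N ⊆ K.cell c := by
  rw [← H.union]; exact subset_union_left

theorem N'_sub (H : SplitData K c S0 T0 D N N') : N' ⊆ K.cell c := by
  rw [← H.union]; exact subset_union_right

theorem D_sub_N (H : SplitData K c S0 T0 D N N') : D ⊆ N := subset_union_left.trans H.ball.1

theorem D_sub_N' (H : SplitData K c S0 T0 D N N') : D ⊆ N' := subset_union_left.trans H.ball'.1

theorem tile_N (H : SplitData K c S0 T0 D N N') {j : J} (hj : j ∈ T0) : K.tile j ⊆ N :=
  (subset_biUnion_of_mem (u := fun j => K.tile j) hj).trans (subset_union_right.trans H.ball.1)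

theorem tile_N' (H : SplitData K c S0 T0 D N N') {j : J} (hj : qC j c) (hj' : j ∉ T0) :
    K.tile j ⊆ N' :=
  (subset_biUnion_of_mem (u := fun j => K.tile j)
    (show j ∈ {j | qC j c ∧ j ∉ T0} from ⟨hj, hj'⟩)).trans (subset_union_right.trans H.ball'.1)

/-- the disc meets all tiles in its boundary curve only -/
theorem D_tile (H : SplitData K c S0 T0 D N N') (j : J) : D ∩ K.tile j ⊆ ⋃ b ∈ S0, K.arc b := by
  rintro x ⟨hx, hxj⟩
  obtain ⟨s, hs, hxs⟩ := mem_iUnion₂.1 (K.cell_tile c j ⟨H.N_sub (H.D_sub_N hx), hxj⟩)
  exact H.prop s hs ⟨hx, hxs⟩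

theorem rim_net (K : Cx3 e0 e1 inc qC Ω) (S0 : Set B) : (⋃ b ∈ S0, K.arc b) ⊆ ⋃ b, K.arc b :=
  iUnion₂_subset fun b _ => subset_iUnion K.arc b

theorem N_tile (H : SplitData K c S0 T0 D N N') {x : V} (hx : x ∈ N) {j : J}
    (hj : x ∈ K.tile j) : x ∈ D ∪ ⋃ j ∈ T0, K.tile j := by
  obtain ⟨s, hs, hxs⟩ := mem_iUnion₂.1 (K.cell_tile c j ⟨H.N_sub hx, hj⟩)
  by_cases h : s ∈ T0
  · exact Or.inr (mem_iUnion₂.2 ⟨s, h, hxs⟩)
  · exact Or.inl (H.inter ⟨hx, H.tile_N' hs h hxs⟩)

theorem N'_tile (H : SplitData K c S0 T0 D N N') {x : V} (hx : x ∈ N') {j : J}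
    (hj : x ∈ K.tile j) : x ∈ D ∪ ⋃ j ∈ {j | qC j c ∧ j ∉ T0}, K.tile j := by
  obtain ⟨s, hs, hxs⟩ := mem_iUnion₂.1 (K.cell_tile c j ⟨H.N'_sub hx, hj⟩)
  by_cases h : s ∈ T0
  · exact Or.inl (H.inter ⟨H.tile_N h hxs, hx⟩)
  · exact Or.inr (mem_iUnion₂.2 ⟨s, ⟨hs, h⟩, hxs⟩)

theorem cell_D (_H : SplitData K c S0 T0 D N N') {x : V} {d : I} (hd : d ≠ c) (hx : x ∈ K.cell d)
    (hxc : x ∈ K.cell c) : ∃ s, qC s d ∧ x ∈ K.tile s := by
  obtain ⟨s, hs⟩ := mem_iUnion.1 (K.cell_cell d c hd ⟨hx, hxc⟩)
  obtain ⟨s', hs', hxs'⟩ := mem_iUnion₂.1 (K.cell_tile d s ⟨hx, hs⟩)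
  exact ⟨s', hs', hxs'⟩

/-- the tiles after the splitting -/
def sTile (K : Cx3 e0 e1 inc qC Ω) (D : Set V) : Option J → Set V
  | none => D
  | some j => K.tile j

open Classical in
/-- the cells after the splitting -/
noncomputable def sCell (K : Cx3 e0 e1 inc qC Ω) (c : I) (N N' : Set V) : Option I → Set V
  | none => N
  | some d => if d = c then N' else K.cell d

theorem sCell_c (K : Cx3 e0 e1 inc qC Ω) (c : I) (N N' : Set V) : sCell K c N N' (some c) = N' := by
  simp [sCell]

theorem sCell_ne (K : Cx3 e0 e1 inc qC Ω) {c d : I} (N N' : Set V) (h : d ≠ c) :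
    sCell K c N N' (some d) = K.cell d := by
  simp [sCell, h]

theorem iUnion_sQ_none (_H : SplitData K c S0 T0 D N N') :
    (⋃ s ∈ {s | sQ qC c T0 s none}, sTile K D s) = D ∪ ⋃ j ∈ T0, K.tile j := by
  ext x
  simp only [mem_iUnion₂, mem_union, mem_ofPred_eq]
  constructor
  · rintro ⟨s, hs, hx⟩
    cases s with
    | none => exact Or.inl hx
    | some j => exact Or.inr ⟨j, hs, hx⟩
  · rintro (hx | ⟨j, hj, hx⟩)
    · exact ⟨none, trivial, hx⟩
    · exact ⟨some j, hj, hx⟩

theorem iUnion_sQ_c (_H : SplitData K c S0 T0 D N N') :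
    (⋃ s ∈ {s | sQ qC c T0 s (some c)}, sTile K D s) =
      D ∪ ⋃ j ∈ {j | qC j c ∧ j ∉ T0}, K.tile j := by
  ext x
  simp only [mem_iUnion₂, mem_union, mem_ofPred_eq]
  constructor
  · rintro ⟨s, hs, hx⟩
    cases s with
    | none => exact Or.inl hx
    | some j =>
      rcases hs with hs | hs
      · exact Or.inr ⟨j, hs.2, hx⟩
      · exact absurd rfl hs.1
  · rintro (hx | ⟨j, hj, hx⟩)
    · exact ⟨none, rfl, hx⟩
    · exact ⟨some j, Or.inl ⟨rfl, hj⟩, hx⟩

theorem iUnion_sQ_ne {d : I} (hd : d ≠ c) :
    (⋃ s ∈ {s | sQ qC c T0 s (some d)}, sTile K D s) = ⋃ s ∈ {s | qC s d}, K.tile s := by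
  ext x
  simp only [mem_iUnion₂, mem_ofPred_eq]
  constructor
  · rintro ⟨s, hs, hx⟩
    cases s with
    | none => exact absurd hs hd
    | some j =>
      rcases hs with hs | hs
      · exact absurd hs.1 hd
      · exact ⟨j, hs.2, hx⟩
  · rintro ⟨j, hj, hx⟩
    exact ⟨some j, Or.inr ⟨hd, hj⟩, hx⟩

/-- **Splitting of a cell.** -/
noncomputable def split (H : SplitData K c S0 T0 D N N') :
    Cx3 e0 e1 (sInc inc S0) (sQ qC c T0) Ω where
  toGraph := K.toGraph
  tile := sTile K D
  tball s := by
    cases s with
    | none => exact H.disc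
    | some j => exact K.tball j
  tile_arc s b := by
    cases s with
    | none =>
      rintro x ⟨hx, hb⟩
      obtain ⟨j, hj⟩ := K.arc_tile b
      exact H.D_tile j ⟨hx, K.toCx2.arc_subset_tile hj hb⟩
    | some j => exact K.tile_arc j b
  tile_tile s s' h := by
    cases s with
    | none =>
      cases s' with
      | none => exact absurd rfl h
      | some j => exact (H.D_tile j).trans (rim_net K S0)
    | some j =>
      cases s' with
      | none =>
        rw [inter_comm]
        exact (H.D_tile j).trans (rim_net K S0)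
      | some k => exact K.tile_tile j k fun e => h (congrArg some e)
  arc_tile b := by
    obtain ⟨j, hj⟩ := K.arc_tile b
    exact ⟨some j, hj⟩
  vert_arc := K.vert_arc
  fin_inc s := by
    cases s with
    | none => exact H.fin
    | some j => exact K.fin_inc j
  lf := by
    intro z hz
    have hzΩ : z ∈ Ω := by
      obtain ⟨s, hs⟩ := mem_iUnion.1 hz
      cases s with
      | none => exact cell_subset K c (H.N_sub (H.D_sub_N hs))
      | some j => exact tile_subset K j hs
    obtain ⟨U, hU, hfin⟩ := lf_tile K z hzΩ
    refine ⟨U, hU, ((hfin.image some).insert none).subset ?_⟩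
    intro s hs
    cases s with
    | none => exact Or.inl rfl
    | some j => exact Or.inr ⟨j, hs, rfl⟩
  cell := sCell K c N N'
  cball d := by
    cases d with
    | none =>
      rw [show sCell K c N N' none = N from rfl]
      have := H.iUnion_sQ_none
      show ConBall 3 N (⋃ s ∈ {s | sQ qC c T0 s none}, sTile K D s)
      rw [this]; exact H.ball
    | some d =>
      by_cases hd : d = c
      · subst hd
        rw [sCell_c]
        show ConBall 3 N' (⋃ s ∈ {s | sQ qC d T0 s (some d)}, sTile K D s)
        rw [H.iUnion_sQ_c]; exact H.ball'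
      · rw [sCell_ne K N N' hd]
        show ConBall 3 (K.cell d) (⋃ s ∈ {s | sQ qC c T0 s (some d)}, sTile K D s)
        rw [iUnion_sQ_ne hd]; exact K.cball d
  cell_tile d s := by
    rintro x ⟨hx, hs⟩
    show x ∈ ⋃ s ∈ {s | sQ qC c T0 s d}, sTile K D s
    have hs' : x ∈ D ∨ ∃ j, x ∈ K.tile j := by
      cases s with
      | none => exact Or.inl hs
      | some j => exact Or.inr ⟨j, hs⟩
    cases d with
    | none =>
      rw [H.iUnion_sQ_none]
      rcases hs' with h | ⟨j, h⟩
      · exact Or.inl h
      · exact H.N_tile hx h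
    | some d =>
      by_cases hd : d = c
      · subst hd
        rw [sCell_c] at hx
        rw [H.iUnion_sQ_c]
        rcases hs' with h | ⟨j, h⟩
        · exact Or.inl h
        · exact H.N'_tile hx h
      · rw [sCell_ne K N N' hd] at hx
        rw [iUnion_sQ_ne hd]
        rcases hs' with h | ⟨j, h⟩
        · obtain ⟨s', h1, h2⟩ := H.cell_D hd hx (H.N_sub (H.D_sub_N h))
          exact mem_iUnion₂.2 ⟨s', h1, h2⟩
        · exact K.cell_tile d j ⟨hx, h⟩
  cell_cell d d' hdd := by
    have key : ∀ {d : I} {x : V}, d ≠ c → x ∈ K.cell d → x ∈ K.cell c →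
        x ∈ ⋃ s, sTile K D s := by
      intro d x hd hx hxc
      obtain ⟨s', -, h2⟩ := H.cell_D hd hx hxc
      exact mem_iUnion.2 ⟨some s', h2⟩
    rintro x ⟨hx, hx'⟩
    show x ∈ ⋃ s, sTile K D s
    cases d with
    | none =>
      cases d' with
      | none => exact absurd rfl hdd
      | some d' =>
        by_cases hd : d' = c
        · subst hd
          rw [sCell_c] at hx'
          exact mem_iUnion.2 ⟨none, H.inter ⟨hx, hx'⟩⟩
        · rw [sCell_ne K N N' hd] at hx'
          exact key hd hx' (H.N_sub hx)
    | some d =>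
      cases d' with
      | none =>
        by_cases hd : d = c
        · subst hd
          rw [sCell_c] at hx
          exact mem_iUnion.2 ⟨none, H.inter ⟨hx', hx⟩⟩
        · rw [sCell_ne K N N' hd] at hx
          exact key hd hx (H.N_sub hx')
      | some d' =>
        have hne : d ≠ d' := fun e => hdd (congrArg some e)
        by_cases hd : d = c
        · subst hd
          rw [sCell_c] at hx
          rw [sCell_ne K N N' (Ne.symm hne)] at hx'
          exact key (Ne.symm hne) hx' (H.N'_sub hx)
        · rw [sCell_ne K N N' hd] at hx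
          by_cases hd' : d' = c
          · subst hd'
            rw [sCell_c] at hx'
            exact key hd hx (H.N'_sub hx')
          · rw [sCell_ne K N N' hd'] at hx'
            obtain ⟨j, hj⟩ := mem_iUnion.1 (K.cell_cell d d' hne ⟨hx, hx'⟩)
            exact mem_iUnion.2 ⟨some j, hj⟩
  two s := by
    cases s with
    | none =>
      refine ⟨none, some c, by simp, fun d => ?_⟩
      cases d with
      | none => exact ⟨fun _ => Or.inl rfl, fun _ => trivial⟩
      | some d =>
        constructor
        · intro h; exact Or.inr (congrArg some h)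
        · rintro (h | h)
          · exact absurd h (by simp)
          · exact Option.some.inj h
    | some j =>
      obtain ⟨x, y, hxy, h⟩ := K.two j
      by_cases hj : j ∈ T0
      · -- the other cell
        obtain ⟨z, hzc, hz⟩ : ∃ z, z ≠ c ∧ ∀ b, qC j b ↔ b = c ∨ b = z := by
          rcases (h c).1 (H.sub j hj) with hc | hc
          · subst hc; exact ⟨y, Ne.symm hxy, h⟩
          · subst hc; exact ⟨x, hxy, fun b => by rw [h b]; exact or_comm⟩
        refine ⟨none, some z, by simp, fun d => ?_⟩
        cases d with
        | none => exact ⟨fun _ => Or.inl rfl, fun _ => hj⟩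
        | some d =>
          constructor
          · rintro (h' | h')
            · exact absurd hj h'.2.2
            · rcases (hz d).1 h'.2 with e | e
              · exact absurd e h'.1
              · exact Or.inr (congrArg some e)
          · rintro (h' | h')
            · exact absurd h' (by simp)
            · have e := Option.some.inj h'
              subst e
              exact Or.inr ⟨hzc, (hz d).2 (Or.inr rfl)⟩
      · refine ⟨some x, some y, fun e => hxy (Option.some.inj e), fun d => ?_⟩
        cases d with
        | none =>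
          constructor
          · intro h'; exact absurd h' hj
          · rintro (h' | h') <;> exact absurd h' (by simp)
        | some d =>
          have e1 : sQ qC c T0 (some j) (some d) ↔ qC j d := by
            constructor
            · rintro (h' | h')
              · rw [h'.1]; exact h'.2.1
              · exact h'.2
            · intro h'
              by_cases hd : d = c
              · subst hd; exact Or.inl ⟨rfl, h', hj⟩
              · exact Or.inr ⟨hd, h'⟩
          rw [e1, h d]
          constructor
          · rintro (h' | h')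
            · exact Or.inl (congrArg some h')
            · exact Or.inr (congrArg some h')
          · rintro (h' | h')
            · exact Or.inl (Option.some.inj h')
            · exact Or.inr (Option.some.inj h')
  fin_qC d := by
    cases d with
    | none =>
      refine (((K.fin_qC c).image some).insert none).subset ?_
      intro s hs
      cases s with
      | none => exact Or.inl rfl
      | some j => exact Or.inr ⟨j, H.sub j hs, rfl⟩
    | some d =>
      refine ((((K.fin_qC c).union (K.fin_qC d)).image some).insert none).subset ?_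
      intro s hs
      cases s with
      | none => exact Or.inl rfl
      | some j =>
        rcases hs with hs | hs
        · exact Or.inr ⟨j, Or.inl hs.2.1, rfl⟩
        · exact Or.inr ⟨j, Or.inr hs.2, rfl⟩
  cover := by
    apply Subset.antisymm
    · refine iUnion_subset fun d => ?_
      cases d with
      | none => exact H.N_sub.trans (cell_subset K c)
      | some d =>
        by_cases hd : d = c
        · subst hd; rw [sCell_c]; exact H.N'_sub.trans (cell_subset K d)
        · rw [sCell_ne K N N' hd]; exact cell_subset K d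
    · intro x hx
      rw [← K.cover] at hx
      obtain ⟨d, hd⟩ := mem_iUnion.1 hx
      by_cases hdc : d = c
      · subst hdc
        rw [← H.union] at hd
        rcases hd with hd | hd
        · exact mem_iUnion.2 ⟨none, hd⟩
        · exact mem_iUnion.2 ⟨some d, by rw [sCell_c]; exact hd⟩
      · exact mem_iUnion.2 ⟨some d, by rw [sCell_ne K N N' hdc]; exact hd⟩
  clf := by
    intro z hz
    obtain ⟨U, hU, hfin⟩ := K.clf z hz
    refine ⟨U, hU, ((hfin.image some).insert none).subset ?_⟩
    intro s hs
    cases s with
    | none => exact Or.inl rfl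
    | some d =>
      refine Or.inr ⟨d, ?_, rfl⟩
      by_cases hd : d = c
      · subst hd
        have hs' : (sCell K d N N' (some d) ∩ U).Nonempty := hs
        rw [sCell_c] at hs'
        exact hs'.mono (inter_subset_inter_left _ H.N'_sub)
      · have hs' : (sCell K c N N' (some d) ∩ U).Nonempty := hs
        rw [sCell_ne K N N' hd] at hs'
        exact hs'

@[simp] theorem split_arc (H : SplitData K c S0 T0 D N N') (b : B) : H.split.arc b = K.arc b := rfl
@[simp] theorem split_y (H : SplitData K c S0 T0 D N N') (v : Vx) : H.split.y v = K.y v := rfl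
@[simp] theorem split_tile_none (H : SplitData K c S0 T0 D N N') : H.split.tile none = D := rfl
@[simp] theorem split_tile_some (H : SplitData K c S0 T0 D N N') (j : J) :
    H.split.tile (some j) = K.tile j := rfl
@[simp] theorem split_cell_none (H : SplitData K c S0 T0 D N N') : H.split.cell none = N := rfl
theorem split_cell_c (H : SplitData K c S0 T0 D N N') : H.split.cell (some c) = N' :=
  sCell_c K c N N'
theorem split_cell_ne (H : SplitData K c S0 T0 D N N') {d : I} (h : d ≠ c) :
    H.split.cell (some d) = K.cell d := sCell_ne K N N' h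
@[simp] theorem split_bd_some (H : SplitData K c S0 T0 D N N') (j : J) :
    H.split.toCx2.bd (some j) = K.toCx2.bd j := rfl

/-- protected sets disjoint from the thin part remain protected -/
theorem prot (H : SplitData K c S0 T0 D N N') {Z : Set V} (hZ : Prot K Z) (hN : Disjoint Z N) :
    Prot H.split Z where
  sub := hZ.sub
  closed := hZ.closed
  tile s := by
    cases s with
    | none => exact fun z hz => absurd (H.D_sub_N hz.2) (disjoint_left.1 hN hz.1)
    | some j => exact hZ.tile j
  cell d := by
    cases d with
    | none => exact fun z hz => absurd hz.2 (disjoint_left.1 hN hz.1)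
    | some d =>
      by_cases hd : d = c
      · subst hd
        rintro z ⟨hz, hz'⟩
        have hz'' : z ∈ N' := by rw [H.split_cell_c] at hz'; exact hz'
        obtain ⟨S, h1, h2, h3, h4⟩ := hZ.cell d z ⟨hz, H.N'_sub hz''⟩
        refine ⟨S, h1, fun x hx => ⟨(h2 hx).1, ?_⟩, h3, h4⟩
        rw [H.split_cell_c]
        have := (h2 hx).2
        rw [← H.union] at this
        exact this.resolve_left (disjoint_left.1 hN (h2 hx).1)
      · rintro z ⟨hz, hz'⟩
        rw [H.split_cell_ne hd] at hz' ⊢
        exact hZ.cell d z ⟨hz, hz'⟩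

end SplitData

end P073.GB932
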