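import Vale.Agent.P073.GB932.LidBox
import Vale.Agent.P073.GB932.Split
import Vale.Agent.P073.PT.MosConn

/-!
# P073, block GB, lids: `SplitData` for a thin box attached to a face of a cell which is a box
-/

open Set Metric Topology Filter

namespace P073.GB932

open P073 P073.PR720 P073.GB73
open Vale.Agent.P073.St (V)

variable {Vx B J I : Type} {e0 e1 : B → Vx} {inc : B → J → Prop} {qC : J → I → Prop} {Ω : Set V}

/-- the boundary of a cell is the frontier -/
theorem frontier_cell (K : Cx3 e0 e1 inc qC Ω) (c : I) : frontier (K.cell c) = cbd K c :=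
  PA644.frontier_conBall (K.cball c)

namespace Att

variable {k : Fin 3} {c : ℝ} {lo hi n0 n1 : V}

/-- the relative interior of the face is open in the frontier of the big box -/
theorem nhds_fc (h : Att k c lo hi n0 n1) {x : V} (hx : x ∈ fc k c n0 n1)
    (hx' : x ∉ rm k c n0 n1) :
    ∃ U : Set V, IsOpen U ∧ x ∈ U ∧ U ∩ frontier (Icc lo hi) ⊆ fc k c n0 n1 ∧
      U ∩ Icc lo hi ⊆ {y | ∀ i, i ≠ k → n0 i < y i ∧ y i < n1 i} := by
  have hin : ∀ i, i ≠ k → n0 i < x i ∧ x i < n1 i := by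
    intro i hi
    refine ⟨lt_of_le_of_ne (hx.1.1 i) fun e => hx' ⟨hx.1, hx.2, i, hi, Or.inl e.symm⟩,
      lt_of_le_of_ne (hx.1.2 i) fun e => hx' ⟨hx.1, hx.2, i, hi, Or.inr e⟩⟩
  have hUo : IsOpen {y : V | ∀ i, i ≠ k → n0 i < y i ∧ y i < n1 i} := by
    have : {y : V | ∀ i, i ≠ k → n0 i < y i ∧ y i < n1 i} =
        ⋂ i : Fin 3, {y : V | i ≠ k → n0 i < y i ∧ y i < n1 i} := by
      ext y; simp
    rw [this]
    refine isOpen_iInter_of_finite fun i => ?_
    by_cases hi : i = k
    · have : {y : V | i ≠ k → n0 i < y i ∧ y i < n1 i} = univ := by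
        ext y; simp [hi]
      rw [this]; exact isOpen_univ
    · have : {y : V | i ≠ k → n0 i < y i ∧ y i < n1 i} = {y | n0 i < y i} ∩ {y | y i < n1 i} := by
        ext y; simp [hi]
      rw [this]
      exact (isOpen_lt continuous_const (continuous_apply i)).inter
        (isOpen_lt (continuous_apply i) continuous_const)
  have hck : n0 k ≤ c ∧ c ≤ n1 k := by
    have := hx.1.1 k
    have := hx.1.2 k
    have := hx.2
    constructor <;> linarith
  have key : ∀ y : V, (∀ i, i ≠ k → n0 i < y i ∧ y i < n1 i) → y k = c → y ∈ fc k c n0 n1 := by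
    intro y hy hyk
    refine ⟨⟨fun i => ?_, fun i => ?_⟩, hyk⟩
    · by_cases hi : i = k
      · subst hi; rw [hyk]; exact hck.1
      · exact (hy i hi).1.le
    · by_cases hi : i = k
      · subst hi; rw [hyk]; exact hck.2
      · exact (hy i hi).2.le
  rcases h.side with ⟨h1, h2, h3⟩ | ⟨h1, h2, h3⟩
  · refine ⟨{y : V | ∀ i, i ≠ k → n0 i < y i ∧ y i < n1 i} ∩ {y | y k < hi k},
      hUo.inter (isOpen_lt (continuous_apply k) continuous_const), ⟨hin, ?_⟩, ?_, fun y hy => hy.1.1⟩
    · show x k < hi k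
      rw [hx.2]; linarith [hck.2]
    · rintro y ⟨⟨hy1, hy2⟩, hyf⟩
      rw [mem_frontier_box] at hyf
      obtain ⟨-, i, hi⟩ := hyf
      by_cases hik : i = k
      · subst hik
        apply key y hy1
        rcases hi with hi | hi
        · rw [hi, h2]
        · exact absurd hi (ne_of_lt hy2)
      · have := hy1 i hik
        have := h.inn i hik
        rcases hi with hi | hi <;> linarith
  · refine ⟨{y : V | ∀ i, i ≠ k → n0 i < y i ∧ y i < n1 i} ∩ {y | lo k < y k},
      hUo.inter (isOpen_lt continuous_const (continuous_apply k)), ⟨hin, ?_⟩, ?_, fun y hy => hy.1.1⟩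
    · show lo k < x k
      rw [hx.2]; linarith [hck.1]
    · rintro y ⟨⟨hy1, hy2⟩, hyf⟩
      rw [mem_frontier_box] at hyf
      obtain ⟨-, i, hi⟩ := hyf
      by_cases hik : i = k
      · subst hik
        apply key y hy1
        rcases hi with hi | hi
        · exact absurd hi (ne_of_gt hy2)
        · rw [hi, h2]
      · have := hy1 i hik
        have := h.inn i hik
        rcases hi with hi | hi <;> linarith

end Att

section

variable {K : Cx3 e0 e1 inc qC Ω} {k : Fin 3} {c : ℝ} {lo hi n0 n1 : V} {cu : I} {T0 : Set J}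

/-- a tile of the cell through a point of the open face belongs to the tiling of the face -/
theorem tile_mem_T0 (hcell : K.cell cu = Icc lo hi) (h : Att k c lo hi n0 n1)
    (hTS : fc k c n0 n1 ⊆ ⋃ j ∈ T0, K.tile j) {j : J} (hj : qC j cu) {x : V}
    (hxj : x ∈ K.tile j) (hx : x ∈ fc k c n0 n1) (hx' : x ∉ rm k c n0 n1) : j ∈ T0 := by
  obtain ⟨U, hU, hxU, hUf, -⟩ := h.nhds_fc hx hx'
  obtain ⟨y, hyU, hy⟩ := mem_closure_iff_nhds.1 (PT.subset_closure_int (K.tball j) hxj) U
    (hU.mem_nhds hxU)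
  have hyn : y ∉ net K := fun hyn => hy.2 (by
    have : y ∈ K.tile j ∩ net K := ⟨hy.1, hyn⟩
    rw [tile_inter_net] at this; exact this)
  have hyf : y ∈ frontier (Icc lo hi) := by
    rw [← hcell, frontier_cell]
    exact mem_iUnion₂.2 ⟨j, hj, hy.1⟩
  obtain ⟨j', hj', hyj'⟩ := mem_iUnion₂.1 (hTS (hUf ⟨hyU, hyf⟩))
  have := ((tile_pt hy.1 hyn).2.1 j').1 hyj'
  rw [← this]; exact hj'

/-- **Lids**: the data for the splitting. -/
theorem lidData (hcell : K.cell cu = Icc lo hi) (h : Att k c lo hi n0 n1)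
    (hT : ∀ j ∈ T0, qC j cu) (hTS : (⋃ j ∈ T0, K.tile j) = fc k c n0 n1) {S0 : Set B}
    (hS : S0.Finite) (hS0 : (⋃ b ∈ S0, K.arc b) = rm k c n0 n1) :
    SplitData K cu S0 T0 (ld k c n0 n1) (Icc n0 n1) ((Icc lo hi \ Icc n0 n1) ∪ ld k c n0 n1) := by
  have hfr : frontier (Icc lo hi) = cbd K cu := by rw [← hcell, frontier_cell]
  have hldsub : ld k c n0 n1 ⊆ Icc n0 n1 := fun x hx => hx.1
  constructor
  · rw [hS0]; exact conBall_ld h.pos h.hc
  · exact hS
  · exact hT
  · rw [hTS, union_comm, fc_union_ld h.hc]; exact conBall_box h.pos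
  · have e : ld k c n0 n1 ∪ ⋃ j ∈ {j | qC j cu ∧ j ∉ T0}, K.tile j =
        (frontier (Icc lo hi) \ fc k c n0 n1) ∪ ld k c n0 n1 := by
      rw [hfr]
      ext x
      constructor
      · rintro (hx | hx)
        · exact Or.inr hx
        · obtain ⟨j, ⟨hj, hj'⟩, hxj⟩ := mem_iUnion₂.1 hx
          by_cases hxf : x ∈ fc k c n0 n1
          · right
            by_contra hld
            exact hj' (tile_mem_T0 hcell h hTS.symm.subset hj hxj hxf
              fun hr => hld (rm_sub_ld hr))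
          · exact Or.inl ⟨mem_iUnion₂.2 ⟨j, hj, hxj⟩, hxf⟩
      · rintro (⟨hx, hxf⟩ | hx)
        · obtain ⟨j, hj, hxj⟩ := mem_iUnion₂.1 hx
          refine Or.inr (mem_iUnion₂.2 ⟨j, ⟨hj, fun hj' => hxf ?_⟩, hxj⟩)
          rw [← hTS]
          exact mem_iUnion₂.2 ⟨j, hj', hxj⟩
        · exact Or.inl hx
    rw [e]
    exact h.rest
  · rw [hcell]
    ext x
    constructor
    · rintro (hx | ⟨hx, -⟩ | hx)
      · exact h.sub hx
      · exact hx
      · exact h.sub (hldsub hx)
    · intro hx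
      by_cases hn : x ∈ Icc n0 n1
      · exact Or.inl hn
      · exact Or.inr (Or.inl ⟨hx, hn⟩)
  · rintro x ⟨hx, ⟨-, hn⟩ | hx'⟩
    · exact absurd hx hn
    · exact hx'
  · rintro j hj x ⟨hx, hxj⟩
    rw [hS0, ← h.ld_inter]
    refine ⟨hx, ?_⟩
    rw [hfr]
    exact mem_iUnion₂.2 ⟨j, hj, hxj⟩

end

end P073.GB932
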