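import Vale.Agent.P073.GB932.Final
import Vale.Agent.P073.PA644.Sub
import Vale.Agent.P073.PA644.Add
import Vale.Agent.P073.ALX.Alexander

/-!
# P073, block GB, lids: a thin box attached to a face of a box

`N = [n0, n1]` is attached to the face `x k = c` of the box `A = [lo, hi]`, inside `A`, away from
the edges of `A`.  The lid of `N` is the rest of its surface.
-/

open Set Metric Topology Filter

namespace P073.GB932

open P073 P073.PR720 P073.GB73
open Vale.Agent.P073.St (V)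

/-- the face `x k = c` of the box `[n0, n1]` -/
def fc (k : Fin 3) (c : ℝ) (n0 n1 : V) : Set V := {x | x ∈ Icc n0 n1 ∧ x k = c}

/-- the rim of the face -/
def rm (k : Fin 3) (c : ℝ) (n0 n1 : V) : Set V :=
  {x | x ∈ Icc n0 n1 ∧ x k = c ∧ ∃ i, i ≠ k ∧ (x i = n0 i ∨ x i = n1 i)}

/-- the lid -/
def ld (k : Fin 3) (c : ℝ) (n0 n1 : V) : Set V :=
  {x | x ∈ Icc n0 n1 ∧
    ((∃ i, i ≠ k ∧ (x i = n0 i ∨ x i = n1 i)) ∨ (x k ≠ c ∧ (x k = n0 k ∨ x k = n1 k)))}

section box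

variable {k : Fin 3} {c : ℝ} {lo hi n0 n1 : V}

theorem mem_frontier_box {a b x : V} :
    x ∈ frontier (Icc a b) ↔ x ∈ Icc a b ∧ ∃ k, x k = a k ∨ x k = b k := by
  rw [isClosed_Icc.frontier_eq, interior_Icc_pi']
  constructor
  · rintro ⟨h1, h2⟩
    refine ⟨h1, ?_⟩
    by_contra hcon
    push Not at hcon
    exact h2 fun k => ⟨lt_of_le_of_ne (h1.1 k) (hcon k).1.symm, lt_of_le_of_ne (h1.2 k) (hcon k).2⟩
  · rintro ⟨h1, k, h2⟩
    refine ⟨h1, fun h3 => ?_⟩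
    rcases h2 with h2 | h2
    · exact (h3 k).1.ne' h2
    · exact (h3 k).2.ne h2

theorem fc_union_ld (hc : c = n0 k ∨ c = n1 k) :
    fc k c n0 n1 ∪ ld k c n0 n1 = frontier (Icc n0 n1) := by
  ext x
  rw [mem_frontier_box]
  constructor
  · rintro (⟨hx, h⟩ | ⟨hx, ⟨i, -, h⟩ | ⟨-, h⟩⟩)
    · refine ⟨hx, k, ?_⟩
      rw [h]; exact hc
    · exact ⟨hx, i, h⟩
    · exact ⟨hx, k, h⟩
  · rintro ⟨hx, i, h⟩
    by_cases hxc : x k = c
    · exact Or.inl ⟨hx, hxc⟩
    · right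
      refine ⟨hx, ?_⟩
      by_cases hik : i = k
      · subst hik; exact Or.inr ⟨hxc, h⟩
      · exact Or.inl ⟨i, hik, h⟩

theorem fc_inter_ld : fc k c n0 n1 ∩ ld k c n0 n1 = rm k c n0 n1 := by
  ext x
  constructor
  · rintro ⟨⟨hx, h⟩, -, h' | h'⟩
    · exact ⟨hx, h, h'⟩
    · exact absurd h h'.1
  · rintro ⟨hx, h, h'⟩
    exact ⟨⟨hx, h⟩, hx, Or.inl h'⟩

theorem rm_sub_fc : rm k c n0 n1 ⊆ fc k c n0 n1 := fun _ hx => ⟨hx.1, hx.2.1⟩
theorem rm_sub_ld : rm k c n0 n1 ⊆ ld k c n0 n1 := fun _ hx => ⟨hx.1, Or.inl hx.2.2⟩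

theorem frontier_sdiff_fc (hc : c = n0 k ∨ c = n1 k) :
    (frontier (Icc n0 n1) \ fc k c n0 n1) ∪ rm k c n0 n1 = ld k c n0 n1 := by
  rw [← fc_union_ld hc]
  ext x
  constructor
  · rintro (⟨h | h, h'⟩ | h)
    · exact absurd h h'
    · exact h
    · exact rm_sub_ld h
  · intro h
    by_cases h' : x ∈ fc k c n0 n1
    · right; rw [← fc_inter_ld]; exact ⟨h', h⟩
    · exact Or.inl ⟨Or.inr h, h'⟩

theorem conBall_fc (hn : ∀ i, n0 i < n1 i) (hc : c = n0 k ∨ c = n1 k) :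
    ConBall 2 (fc k c n0 n1) (rm k c n0 n1) := by
  have h := conBall_brickFace two_ne_zero k c (lo := n0) (hi := n1) (fun i _ => hn i)
  have hck : n0 k ≤ c ∧ c ≤ n1 k := by
    rcases hc with rfl | rfl
    · exact ⟨le_rfl, (hn k).le⟩
    · exact ⟨(hn k).le, le_rfl⟩
  have e1 : {x : V | x k = c ∧ ∀ i, i ≠ k → n0 i ≤ x i ∧ x i ≤ n1 i} = fc k c n0 n1 := by
    ext x
    constructor
    · rintro ⟨h1, h2⟩
      refine ⟨⟨fun i => ?_, fun i => ?_⟩, h1⟩
      · by_cases hi : i = k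
        · subst hi; rw [h1]; exact hck.1
        · exact (h2 i hi).1
      · by_cases hi : i = k
        · subst hi; rw [h1]; exact hck.2
        · exact (h2 i hi).2
    · rintro ⟨h1, h2⟩
      exact ⟨h2, fun i _ => ⟨h1.1 i, h1.2 i⟩⟩
  rw [e1] at h
  have e2 : {x : V | x ∈ fc k c n0 n1 ∧ ∃ i, i ≠ k ∧ (x i = n0 i ∨ x i = n1 i)} =
      rm k c n0 n1 := by
    ext x
    exact ⟨fun h => ⟨h.1.1, h.1.2, h.2⟩, fun h => ⟨⟨h.1, h.2.1⟩, h.2.2⟩⟩
  rw [← e2]
  exact h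

theorem conBall_box (hn : ∀ i, n0 i < n1 i) : ConBall 3 (Icc n0 n1) (frontier (Icc n0 n1)) :=
  conBall_Icc_pi (by norm_num) hn

theorem jordanSph2 : JordanSph 2 := jordanSph_two H339.jordanSch_sphere

theorem conBall_ld (hn : ∀ i, n0 i < n1 i) (hc : c = n0 k ∨ c = n1 k) :
    ConBall 2 (ld k c n0 n1) (rm k c n0 n1) := by
  have h1 := PA644.conBall_compl (jordanSph2 _ (conBall_box hn).conSphere) (conBall_fc hn hc)
    (by rw [← fc_union_ld hc]; exact subset_union_left)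
  rwa [frontier_sdiff_fc hc] at h1

/-- `[n0, n1]` is attached to the face `x k = c` of `[lo, hi]` -/
structure Att (k : Fin 3) (c : ℝ) (lo hi n0 n1 : V) : Prop where
  pos : ∀ i, n0 i < n1 i
  inn : ∀ i, i ≠ k → lo i < n0 i ∧ n1 i < hi i
  side : (c = n0 k ∧ c = lo k ∧ n1 k < hi k) ∨ (c = n1 k ∧ c = hi k ∧ lo k < n0 k)

namespace Att

theorem hc (h : Att k c lo hi n0 n1) : c = n0 k ∨ c = n1 k :=
  h.side.imp (fun h => h.1) fun h => h.1

theorem hA (h : Att k c lo hi n0 n1) : ∀ i, lo i < hi i := by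
  intro i
  by_cases hi : i = k
  · subst hi
    have := h.pos i
    rcases h.side with ⟨h1, h2, h3⟩ | ⟨h1, h2, h3⟩ <;> linarith
  · have := h.pos i
    have := h.inn i hi
    linarith

theorem sub (h : Att k c lo hi n0 n1) : Icc n0 n1 ⊆ Icc lo hi := by
  intro x hx
  constructor
  · intro i
    by_cases hi : i = k
    · subst hi
      have := hx.1 i
      rcases h.side with ⟨h1, h2, h3⟩ | ⟨h1, h2, h3⟩ <;> linarith
    · have := hx.1 i
      have := h.inn i hi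
      linarith
  · intro i
    by_cases hi : i = k
    · subst hi
      have := hx.2 i
      rcases h.side with ⟨h1, h2, h3⟩ | ⟨h1, h2, h3⟩ <;> linarith
    · have := hx.2 i
      have := h.inn i hi
      linarith

theorem inter_frontier (h : Att k c lo hi n0 n1) :
    Icc n0 n1 ∩ frontier (Icc lo hi) = fc k c n0 n1 := by
  ext x
  rw [mem_inter_iff, mem_frontier_box]
  constructor
  · rintro ⟨hx, -, i, hi⟩
    by_cases hik : i = k
    · subst hik
      refine ⟨hx, ?_⟩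
      have h1 := hx.1 i
      have h2 := hx.2 i
      rcases h.side with ⟨h3, h4, h5⟩ | ⟨h3, h4, h5⟩ <;> rcases hi with hi | hi <;> linarith
    · exfalso
      have h1 := hx.1 i
      have h2 := hx.2 i
      have h3 := h.inn i hik
      rcases hi with hi | hi <;> linarith
  · rintro ⟨hx, hxc⟩
    refine ⟨hx, h.sub hx, k, ?_⟩
    rcases h.side with ⟨h3, h4, h5⟩ | ⟨h3, h4, h5⟩
    · left; rw [hxc, h4]
    · right; rw [hxc, h4]

theorem fr_inter (h : Att k c lo hi n0 n1) :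
    frontier (Icc n0 n1) ∩ frontier (Icc lo hi) = fc k c n0 n1 := by
  apply Subset.antisymm
  · rintro x ⟨h1, h2⟩
    rw [← h.inter_frontier]
    exact ⟨isClosed_Icc.frontier_subset h1, h2⟩
  · intro x hx
    refine ⟨?_, ?_⟩
    · rw [← fc_union_ld h.hc]; exact Or.inl hx
    · rw [← h.inter_frontier] at hx; exact hx.2

theorem ld_inter (h : Att k c lo hi n0 n1) :
    ld k c n0 n1 ∩ frontier (Icc lo hi) = rm k c n0 n1 := by
  rw [← fc_inter_ld, ← h.inter_frontier]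
  ext x
  constructor
  · rintro ⟨h1, h2⟩
    exact ⟨⟨h1.1, h2⟩, h1⟩
  · rintro ⟨⟨h1, h2⟩, h3⟩
    exact ⟨h3, h2⟩

/-- the rest of the box -/
theorem rest (h : Att k c lo hi n0 n1) :
    ConBall 3 ((Icc lo hi \ Icc n0 n1) ∪ ld k c n0 n1)
      ((frontier (Icc lo hi) \ fc k c n0 n1) ∪ ld k c n0 n1) := by
  obtain ⟨h1, h2, h3, -, -⟩ := PA644.sub_ball ALX.ambStd_three (conBall_box h.hA)
    (conBall_box h.pos) h.sub h.fr_inter (fc_union_ld h.hc) (conBall_ld h.pos h.hc) fc_inter_ld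
  rw [h2, h3] at h1
  exact h1

end Att

end box

end P073.GB932
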