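import Vale.Agent.P073.GB932.Lid
import Vale.Agent.P073.GB200.Basic

/-!
# P073, block GB, rank 2: `DomCut` of a plate from its planar part

The plate `R` is contained in two cells, which are boxes, above and below the plane `x k = c`.
-/

open Set Metric Topology Filter

namespace P073.GB932

open P073 P073.PR720 P073.GB73
open Vale.Agent.P073.St (V)

variable {Vx B J I : Type} {e0 e1 : B → Vx} {inc : B → J → Prop} {qC : J → I → Prop} {Ω : Set V}

/-- one half of the plate `R`: the cell `N = [n0, n1]` meets `R` in the box `[r0, r1]`, which is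
attached to the face `x k = c` of `N` -/
structure Half (k : Fin 3) (c : ℝ) (N R : Set V) (n0 n1 r0 r1 : V) : Prop where
  eq : N = Icc n0 n1
  att : Att k c n0 n1 r0 r1
  inter : N ∩ R = Icc r0 r1
  fr : N ∩ frontier R = ld k c r0 r1

namespace Half

variable {k : Fin 3} {c : ℝ} {N R : Set V} {n0 n1 r0 r1 : V}

theorem sdiff (h : Half k c N R n0 n1 r0 r1) (hR : IsClosed R) :
    N \ interior R = (Icc n0 n1 \ Icc r0 r1) ∪ ld k c r0 r1 := by
  rw [← h.fr, ← h.inter, ← h.eq]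
  ext x
  constructor
  · rintro ⟨h1, h2⟩
    by_cases hx : x ∈ R
    · right
      refine ⟨h1, ?_⟩
      rw [hR.frontier_eq]; exact ⟨hx, h2⟩
    · exact Or.inl ⟨h1, fun h => hx h.2⟩
  · rintro (⟨h1, h2⟩ | ⟨h1, h2⟩)
    · exact ⟨h1, fun h => h2 ⟨h1, interior_subset h⟩⟩
    · exact ⟨h1, h2.2⟩

theorem frN_R (h : Half k c N R n0 n1 r0 r1) : frontier N ∩ R = fc k c r0 r1 := by
  have hN : frontier N ⊆ N := by rw [h.eq]; exact isClosed_Icc.frontier_subset
  rw [← h.att.inter_frontier, ← h.inter, ← h.eq]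
  ext x
  exact ⟨fun hx => ⟨⟨hN hx.1, hx.2⟩, hx.1⟩, fun hx => ⟨hx.2, hx.1.2⟩⟩

theorem frN_fr (h : Half k c N R n0 n1 r0 r1) : frontier N ∩ frontier R = rm k c r0 r1 := by
  have hN : frontier N ⊆ N := by rw [h.eq]; exact isClosed_Icc.frontier_subset
  rw [← h.att.ld_inter, ← h.fr, ← h.eq]
  ext x
  exact ⟨fun hx => ⟨⟨hN hx.1, hx.2⟩, hx.1⟩, fun hx => ⟨hx.2, hx.1.2⟩⟩

theorem disc (h : Half k c N R n0 n1 r0 r1) :
    ConBall 2 (N ∩ frontier R) (frontier N ∩ frontier R) := by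
  rw [h.frN_fr, h.fr]
  exact conBall_ld h.att.pos h.att.hc

theorem cell_in (h : Half k c N R n0 n1 r0 r1) :
    ConBall 3 (N ∩ R) ((frontier N ∩ R) ∪ (N ∩ frontier R)) := by
  rw [h.frN_R, h.fr, h.inter, fc_union_ld h.att.hc]
  exact conBall_box h.att.pos

theorem cell_out (h : Half k c N R n0 n1 r0 r1) (hR : IsClosed R) :
    ConBall 3 (N \ interior R) ((frontier N \ interior R) ∪ (N ∩ frontier R)) := by
  have e : (frontier N \ interior R) ∪ (N ∩ frontier R) =
      (frontier (Icc n0 n1) \ fc k c r0 r1) ∪ ld k c r0 r1 := by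
    rw [← h.frN_R, h.fr, ← h.eq]
    ext x
    constructor
    · rintro (⟨h1, h2⟩ | h1)
      · by_cases hx : x ∈ R
        · right
          rw [← h.fr]
          refine ⟨?_, ?_⟩
          · rw [h.eq] at h1 ⊢; exact isClosed_Icc.frontier_subset h1
          · rw [hR.frontier_eq]; exact ⟨hx, h2⟩
        · exact Or.inl ⟨h1, fun h => hx h.2⟩
      · exact Or.inr h1
    · rintro (⟨h1, h2⟩ | h1)
      · exact Or.inl ⟨h1, fun h => h2 ⟨h1, interior_subset h⟩⟩
      · exact Or.inr h1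
  rw [e, h.sdiff hR]
  exact h.att.rest

end Half

/-- the planar part of `DomCut` -/
structure PlanarCut (K : Cx3 e0 e1 inc qC Ω) (R : Set V) (P : Set B) (p : B → V) : Prop where
  crosses : Crosses K.toGraph id R P p
  off_tile : ∀ j, {b | inc b j ∧ b ∈ P} = ∅ → Disjoint (K.tile j) (frontier R)
  arc : ∀ j b b', b ≠ b' → {b | inc b j ∧ b ∈ P} = {b, b'} →
    ConBall 1 (K.tile j ∩ frontier R) {p b, p b'}
  tile_in : ∀ j, {b | inc b j ∧ b ∈ P} ≠ ∅ →
    ConBall 2 (K.tile j ∩ R) ((K.toCx2.bd j ∩ R) ∪ (K.tile j ∩ frontier R))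
  tile_out : ∀ j, {b | inc b j ∧ b ∈ P} ≠ ∅ →
    ConBall 2 (K.tile j \ interior R) ((K.toCx2.bd j \ interior R) ∪ (K.tile j ∩ frontier R))

/-- the plate `R` is covered by the interior of two boxes, cells of the complex -/
structure TwoCells (K : Cx3 e0 e1 inc qC Ω) (R : Set V) (k : Fin 3) (c : ℝ) (cu cd : I)
    (n0 n1 r0 r1 m0 m1 t0 t1 : V) : Prop where
  up : Half k c (K.cell cu) R n0 n1 r0 r1
  dn : Half k c (K.cell cd) R m0 m1 t0 t1
  cov : ∃ U, IsOpen U ∧ R ⊆ U ∧ U ⊆ K.cell cu ∪ K.cell cd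
  mid : ∀ x ∈ R, x k = c → x ∈ K.cell cu ∧ x ∈ K.cell cd

section

variable {K : Cx3 e0 e1 inc qC Ω} {R : Set V} {P : Set B} {p : B → V} {k : Fin 3} {c : ℝ}
  {cu cd : I} {n0 n1 r0 r1 m0 m1 t0 t1 : V}

theorem mem_frontier_cell {c : I} {x : V} (hx : x ∈ K.cell c) (hx' : x ∈ sk2 K) :
    x ∈ frontier (K.cell c) := by
  rw [frontier_cell, ← cell_inter_sk2]; exact ⟨hx, hx'⟩

/-- points of the two-skeleton on the plate are on the middle plane -/
theorem TwoCells.plane (H : TwoCells K R k c cu cd n0 n1 r0 r1 m0 m1 t0 t1) {x : V} (hx : x ∈ R)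
    (hx' : x ∈ sk2 K) : x k = c := by
  obtain ⟨U, -, hRU, hU⟩ := H.cov
  rcases hU (hRU hx) with h | h
  · have h1 : x ∈ frontier (K.cell cu) ∩ R := ⟨mem_frontier_cell h hx', hx⟩
    rw [H.up.frN_R] at h1
    exact h1.2
  · have h1 : x ∈ frontier (K.cell cd) ∩ R := ⟨mem_frontier_cell h hx', hx⟩
    rw [H.dn.frN_R] at h1
    exact h1.2

/-- the other cells miss the plate -/
theorem TwoCells.other (H : TwoCells K R k c cu cd n0 n1 r0 r1 m0 m1 t0 t1) {d : I}
    (h1 : d ≠ cu) (h2 : d ≠ cd) : Disjoint (K.cell d) R := by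
  rw [disjoint_left]
  intro x hx hxR
  obtain ⟨U, hUo, hRU, hU⟩ := H.cov
  obtain ⟨y, hyU, hy⟩ := mem_closure_iff_nhds.1 (PT.subset_closure_int (K.cball d) hx) U
    (hUo.mem_nhds (hRU hxR))
  have : y ∈ sk2 K := by
    rcases hU hyU with h | h
    · exact K.cell_cell d cu h1 ⟨hy.1, h⟩
    · exact K.cell_cell d cd h2 ⟨hy.1, h⟩
  apply hy.2
  have h3 : y ∈ K.cell d ∩ sk2 K := ⟨hy.1, this⟩
  rw [cell_inter_sk2] at h3
  exact h3

theorem iUnion_inter_eq (c : I) (S : Set V) :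
    (⋃ j ∈ {j | qC j c}, K.tile j ∩ S) = frontier (K.cell c) ∩ S := by
  rw [frontier_cell]
  unfold cbd
  rw [iUnion₂_inter]

theorem iUnion_sdiff_eq (c : I) (S : Set V) :
    (⋃ j ∈ {j | qC j c}, K.tile j \ S) = frontier (K.cell c) \ S := by
  rw [frontier_cell]
  unfold cbd
  ext x
  simp only [mem_iUnion, Set.mem_sdiff, exists_prop, mem_ofPred_eq]
  constructor
  · rintro ⟨j, hj, hx, hxS⟩; exact ⟨⟨j, hj, hx⟩, hxS⟩
  · rintro ⟨⟨j, hj, hx⟩, hxS⟩; exact ⟨j, hj, hx, hxS⟩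

/-- a crossed edge belongs to crossed tiles of both cells -/
theorem TwoCells.crossed (H : TwoCells K R k c cu cd n0 n1 r0 r1 m0 m1 t0 t1)
    (hR : IsClosed R) (hP : Crosses K.toGraph id R P p) {b : B} (hb : b ∈ P) :
    (∃ j, inc b j ∧ qC j cu) ∧ ∃ j, inc b j ∧ qC j cd := by
  have h1 : p b ∈ K.arc b ∩ frontier R := by
    have := hP.on b hb
    rw [image_id] at this
    rw [this]; exact mem_singleton _
  have h2 : p b ∈ sk2 K := net_subset_sk2 K (mem_iUnion.2 ⟨b, h1.1⟩)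
  have h3 : p b k = c := H.plane (hR.frontier_subset h1.2) h2
  have h4 := H.mid _ (hR.frontier_subset h1.2) h3
  have h5 : p b ∉ range K.y := by
    rintro ⟨v, hv⟩
    exact GB200.Cr.vert_notMem hP hR v (by rw [hv]; exact h1.2)
  have h6 := (arc_pt h1.1 h5).2.2
  exact ⟨(h6 cu).1 h4.1, (h6 cd).1 h4.2⟩

/-- **`DomCut` of a plate** from its planar part -/
theorem domCut_plate (H : TwoCells K R k c cu cd n0 n1 r0 r1 m0 m1 t0 t1)
    (hball : ConBall 3 R (frontier R)) (hRΩ : R ⊆ Ω) (hPne : P.Nonempty)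
    (hP : PlanarCut K R P p) : DomCut K R P p := by
  have hR : IsClosed R := hball.isClosed
  have hcell : ∀ d, (∃ j, qC j d ∧ {b | inc b j ∧ b ∈ P} ≠ ∅) → d = cu ∨ d = cd := by
    rintro d ⟨j, hj, hne⟩
    obtain ⟨b, hbj, hbP⟩ := nonempty_iff_ne_empty.2 hne
    by_contra hcon
    push Not at hcon
    have h1 : p b ∈ K.arc b ∩ frontier R := by
      have := hP.crosses.on b hbP
      rw [image_id] at this
      rw [this]; exact mem_singleton _
    exact disjoint_left.1 (H.other hcon.1 hcon.2)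
      (tile_subset_cell K hj (K.toCx2.arc_subset_tile hbj h1.1)) (hR.frontier_subset h1.2)
  constructor
  · exact hball
  · exact hRΩ
  · exact hP.crosses
  · exact hP.off_tile
  · exact hP.arc
  · exact hP.tile_in
  · exact hP.tile_out
  · intro d hd
    obtain ⟨b, hb⟩ := hPne
    obtain ⟨⟨j, h1, h2⟩, j', h3, h4⟩ := H.crossed hR hP.crosses hb
    refine (H.other ?_ ?_).mono_right hR.frontier_subset
    · rintro rfl
      have : b ∈ {b | inc b j ∧ b ∈ P} := ⟨h1, hb⟩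
      rw [hd j h2] at this; exact this
    · rintro rfl
      have : b ∈ {b | inc b j' ∧ b ∈ P} := ⟨h3, hb⟩
      rw [hd j' h4] at this; exact this
  · intro d hd
    rw [iUnion_inter_eq]
    rcases hcell d hd with rfl | rfl
    · exact H.up.disc
    · exact H.dn.disc
  · intro d hd
    rw [iUnion_inter_eq]
    rcases hcell d hd with rfl | rfl
    · exact H.up.cell_in
    · exact H.dn.cell_in
  · intro d hd
    rw [iUnion_sdiff_eq]
    rcases hcell d hd with rfl | rfl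
    · exact H.up.cell_out hR
    · exact H.dn.cell_out hR

end

end P073.GB932
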