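import Vale.Agent.P073.GB932.Comp

/-!
# P073, block GB, rank 2 (plates): the exact Props and the composition

A plate is a box `[a, b]` whose surface is crossed by the net only along its rim, the curve
`x k = (a k + b k) / 2` of the surface.  Closeness to the model map is known on the rim only, and
only for the coordinates `i ≠ k`.  The sides of the plate may be exchanged: the conclusion is
`h3 = L ∘ r` on the inner box, where `r` is the identity or the reflection at the middle plane.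
-/

open Set Metric Topology Filter

namespace P073.GB932

open P073 P073.PR720 P073.GB73
open Vale.Agent.P073.St (V)

/-- the reflection of the box `[a, b]` at its middle plane orthogonal to `e_k` -/
def refl (a b : V) (k : Fin 3) (x : V) : V := Function.update x k (a k + b k - x k)

/-- the rim: the points of the surface at middle height -/
def rim (a b : V) (k : Fin 3) : Set V := {x | x ∈ frontier (Icc a b) ∧ 2 * x k = a k + b k}

/-- the box with the given rectangle and the heights `c - d`, `c + d` in the direction `k` -/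
def pbox (k : Fin 3) (a b : V) (c d : ℝ) : Set V :=
  Icc (Function.update a k (c - d)) (Function.update b k (c + d))

/-- the marked points `X` are on the rim, at a distance at least `m` from the vertical edges -/
def Marked (a b : V) (k : Fin 3) (m : ℝ) (X : Set V) : Prop :=
  ∀ x ∈ X, 2 * x k = a k + b k ∧
    ∃ i ≠ k, (x i = a i ∨ x i = b i) ∧ ∀ j, j ≠ i → j ≠ k → a j + m ≤ x j ∧ x j ≤ b j - m

/-- the conclusion of the collar theorem for plates, with closeness `ρ` on the rim -/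
def Collar2 (a b : V) (k : Fin 3) (m : ℝ) (X : Set V) (ρ : ℝ) : Prop :=
  ∀ φ : ConHomeo (frontier (Icc a b)) (frontier (Icc a b)),
    (∀ x ∈ X, φ.toFun x = x) →
    (∀ x ∈ rim a b k, ∀ i, i ≠ k → |φ.toFun x i - x i| ≤ ρ) →
    ∀ θ, 0 < θ → θ < m → ∃ Φ : ConHomeo (Icc a b) (Icc a b),
      (EqOn Φ.toFun φ.toFun (frontier (Icc a b)) ∨
        EqOn Φ.toFun (fun x => refl a b k (φ.toFun x)) (frontier (Icc a b))) ∧
      (∀ x ∈ shr a b θ, Φ.toFun x = x) ∧
      ∀ x ∈ X, ∀ z ∈ Icc a b, ‖z - x‖ ≤ m →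
        (∃ i, i ≠ k ∧ (x i = a i ∨ x i = b i) ∧ (∀ j ≠ i, z j = x j)) → Φ.toFun z = z

/-- **(GB4c, rank 2)** The collar theorem for plates.  The number `ρ` depends on the rectangle and
on the marked points only, not on the thickness. -/
def SpecCollar2 : Prop :=
  ∀ (k : Fin 3) (a b : V) (c m : ℝ), 0 < m → (∀ i, i ≠ k → 2 * m < b i - a i) →
  ∀ X : Set V, X.Finite →
    (∀ x ∈ X, x k = c ∧
      ∃ i ≠ k, (x i = a i ∨ x i = b i) ∧ ∀ j, j ≠ i → j ≠ k → a j + m ≤ x j ∧ x j ≤ b j - m) →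
    ∃ ρ > 0, ∀ d > 0,
      Collar2 (Function.update a k (c - d)) (Function.update b k (c + d)) k m X ρ

/-- **(GB, rank 2)** the block for one plate `[a, b]`, which is thin in the direction `k`. -/
def SpecGB2 : Prop :=
  ∀ (Vx B J I : Type) (e0 e1 : B → Vx) (inc : B → J → Prop) (qC : J → I → Prop) (Ω Λ : Set V)
    (K : Cx3 e0 e1 inc qC Ω) (h : ConHomeo Ω Λ), IsOpen Ω → IsOpen Λ →
  ∀ (k : Fin 3) (a b : V) (m : ℝ),
  ∀ (F : Finset J) (A : J → Body) (P : J → Set B) (y : J → ℝ → B → V)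
    (A0 : Body) (P0 : Set B) (y0 : ℝ → B → V) (p : B → V) (M : Set B)
    (L : (t : A0.T) → ConHomeo (Icc a b) (A0.at t)),
    (∀ σ ∈ F, (A σ).Good Λ) → A0.Good Λ → (∀ σ ∈ F, Pat inc (P σ)) → Pat inc P0 →
    (∀ σ ∈ F, ∀ t ∈ (A σ).T, Crosses K.toGraph h.toFun ((A σ).at t) (P σ) (y σ t)) →
    (∀ t ∈ A0.T, Crosses K.toGraph h.toFun (A0.at t) P0 (y0 t)) →
    (∀ σ ∈ F, ∀ t ∈ (A σ).T, h.toFun '' (K.toCx2.bd σ) ⊆ interior ((A σ).at t)) →
    (∀ σ ∈ F, ∀ τ ∈ F, σ ≠ τ → ∀ t ∈ (A σ).T, ∀ s ∈ (A τ).T,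
      IsPreconnected (frontier ((A τ).at s) \ interior ((A σ).at t)) ∧
      ∃ b ∈ P τ, y τ s b ∉ interior ((A σ).at t)) →
    (∀ σ ∈ F, ∀ t ∈ (A σ).T, ∀ s ∈ A0.T,
      IsPreconnected (frontier (A0.at s) \ interior ((A σ).at t)) ∧
      ∃ b ∈ P0, y0 s b ∉ interior ((A σ).at t)) →
    DomCut K (Icc a b) P0 p →
    (∀ t ∈ A0.T, ∀ v, K.y v ∈ interior (Icc a b) ↔ h.toFun (K.y v) ∈ interior (A0.at t)) →
    -- marked points
    M ⊆ P0 →
    (∀ t : A0.T, ∀ i ∈ M, y0 t i = (L t).toFun (p i)) →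
    -- closeness on the rim: `ρ` is the number of `SpecCollar2`
  ∀ ρ : ℝ, Collar2 a b k m (p '' M) ρ →
    (∀ x ∈ rim a b k, ∃ j ∈ F, x ∈ K.tile j ∧ ∀ s ∈ (A j).T, ∀ t : A0.T,
      ∀ z ∈ frontier (Icc a b), (L t).toFun z ∈ (A j).at s → ∀ i, i ≠ k → |z i - x i| ≤ ρ) →
  ∀ χ : (t : A0.T) → (i : B) → ConHomeo (K.arc i) (K.arc i),
    (∀ t i, (χ t i).toFun (K.y (e0 i)) = K.y (e0 i)) →
    (∀ t i, (χ t i).toFun (K.y (e1 i)) = K.y (e1 i)) →
    (∀ t, ∀ i ∉ P0, ∀ x ∈ K.arc i, (χ t i).toFun x = x) →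
    (∀ t : A0.T, ∀ i ∈ P0, h.toFun ((χ t i).toFun (p i)) = y0 t i) →
    -- protected set
  ∀ Z, Prot K Z → Disjoint Z (Icc a b) →
    (∀ c, ¬ Disjoint (K.cell c) (frontier (Icc a b)) → Disjoint Z (K.cell c)) →
    (∀ σ ∈ F, ∀ s ∈ (A σ).T, Disjoint (h.toFun '' Z) ((A σ).at s)) →
    (∀ s ∈ A0.T, Disjoint (h.toFun '' Z) (A0.at s)) →
  ∀ θ, 0 < θ → θ < m →
    ∃ (h3 : ConHomeo Ω Λ) (t : A0.T) (r : V → V), (r = id ∨ r = refl a b k) ∧
      (∀ i, ∀ x ∈ K.arc i, x ∉ interior (Icc a b) → h3.toFun x = h.toFun ((χ t i).toFun x)) ∧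
      EqOn h3.toFun h.toFun Z ∧
      h3.toFun '' Icc a b = A0.at t ∧
      (∀ x ∈ shr a b θ, h3.toFun x = (L t).toFun (r x)) ∧
      ∀ i ∈ M, ∀ z ∈ Icc a b, ‖z - p i‖ ≤ m → 2 * z k = a k + b k →
        (∃ l, l ≠ k ∧ (p i l = a l ∨ p i l = b l) ∧ (∀ j ≠ l, z j = p i j)) →
        h3.toFun z = (L t).toFun z

theorem refl_refl (a b : V) (k : Fin 3) (x : V) : refl a b k (refl a b k x) = x := by
  unfold refl
  ext i
  by_cases h : i = k
  · subst h; simp
  · simp [h]

theorem refl_mem_Icc {a b : V} {k : Fin 3} {x : V} (hx : x ∈ Icc a b) : refl a b k x ∈ Icc a b := by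
  unfold refl
  constructor
  · intro i
    by_cases h : i = k
    · subst h; simp only [Function.update_self]; linarith [hx.2 i]
    · simp only [ne_eq, h, not_false_eq_true, Function.update_of_ne]; exact hx.1 i
  · intro i
    by_cases h : i = k
    · subst h; simp only [Function.update_self]; linarith [hx.1 i]
    · simp only [ne_eq, h, not_false_eq_true, Function.update_of_ne]; exact hx.2 i

theorem refl_eq_self {a b : V} {k : Fin 3} {x : V} (hx : 2 * x k = a k + b k) :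
    refl a b k x = x := by
  unfold refl
  have : a k + b k - x k = x k := by linarith
  rw [this, Function.update_eq_self]

/-- the reflection as an affine map -/
def reflAff (a b : V) (k : Fin 3) : V →ᵃ[ℝ] V where
  toFun := refl a b k
  linear :=
    { toFun := fun x => Function.update x k (- x k)
      map_add' := by
        intro x y
        ext i
        by_cases h : i = k
        · subst h; simp; ring
        · simp [h]
      map_smul' := by
        intro c x
        ext i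
        by_cases h : i = k
        · subst h; simp
        · simp [h] }
  map_vadd' := by
    intro x v
    ext i
    unfold refl
    by_cases h : i = k
    · subst h; simp; ring
    · simp [h]

theorem continuous_refl (a b : V) (k : Fin 3) : Continuous (refl a b k) := by
  unfold refl
  fun_prop

/-- the reflection of the box -/
def reflH (a b : V) (k : Fin 3) : ConHomeo (Icc a b) (Icc a b) where
  toFun := refl a b k
  invFun := refl a b k
  mapsTo := fun _ hx => refl_mem_Icc hx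
  mapsTo_inv := fun _ hx => refl_mem_Icc hx
  left_inv := fun x _ => refl_refl a b k x
  right_inv := fun x _ => refl_refl a b k x
  cont := (continuous_refl a b k).continuousOn
  cont_inv := (continuous_refl a b k).continuousOn
  conical := conicalOn_of_affine (reflAff a b k) (locCone_Icc_pi a b).conicalSet

/-- **(GB, rank 2)** composition. -/
theorem specGB2_of (hclean : SpecClean) (hcut : SpecCut') : SpecGB2 := by
  intro Vx B J I e0 e1 inc qC Ω Λ K h hΩ hΛ k a b m F A P y A0 P0 y0 p M L hA hA0 hP hP0 hc hc0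
    hbd hsep hsep0 hdom hv hM hyL ρ hcol hrim χ χ0 χ1 χ2 χ3 Z hZ hZR hZc hZF hZ0 θ hθ hθm
  obtain ⟨h', t, t0, ht, ht0, harc, hZ', htile, hu0, hcr, hd⟩ := hclean Vx B J I e0 e1 inc qC Ω Λ K h
    hΩ hΛ F A P y A0 P0 y0 hA hA0 hP hP0 hc hc0 hbd hsep hsep0 Z hZ hZF hZ0
  have hA0c : IsCompact (A0.at t0) := isCompact_at hA0 t0
  have hA0Λ : A0.at t0 ⊆ Λ := hA0.sub t0 ht0
  have hball : ConBall 3 (A0.at t0) (frontier (A0.at t0)) := hA0.ball t0 ht0
  have hyarc : ∀ v, ∃ i, K.y v ∈ K.arc i := by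
    intro v
    obtain ⟨i, hi⟩ := K.vert_arc v
    rcases hi with rfl | rfl
    · exact ⟨i, (K.ball i).1 (Or.inl rfl)⟩
    · exact ⟨i, (K.ball i).1 (Or.inr rfl)⟩
  have hhy : ∀ v, h'.toFun (K.y v) = h.toFun (K.y v) := fun v => by
    obtain ⟨i, hi⟩ := hyarc v
    exact harc i hi
  have hcr' : Crosses K.toGraph h'.toFun (A0.at t0) P0 (y0 t0) := by
    have himg : ∀ i, h'.toFun '' K.arc i = h.toFun '' K.arc i := fun i => (harc i).image_eq
    constructor
    · intro i hi
      rw [himg]; exact (hc0 t0 ht0).off i hi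
    · intro i hi
      rw [himg]; exact (hc0 t0 ht0).on i hi
    · intro i hi
      rw [hhy, hhy]; exact (hc0 t0 ht0).ends i hi
  let χ' : (i : B) → ConHomeo (K.arc i) (K.arc i) := χ ⟨t0, ht0⟩
  have hparc : ∀ i ∈ P0, p i ∈ K.arc i ∩ frontier (Icc a b) := fun i hi =>
    (fullCut_of_domCut hdom).mem_arc hi
  obtain ⟨h2, k1, k2, k3, k4, k5, k6⟩ := hcut Vx B J I e0 e1 inc qC Ω Λ K h' hΩ hΛ (A0.at t0) P0
    (y0 t0) (Icc a b) p hball hA0Λ hP0 hcr' hdom hu0 hcr hd
    (fun v => by rw [hhy]; exact hv t0 ht0 v) χ' (χ0 _) (χ1 _) (χ2 _)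
    (fun i hi => by
      rw [harc i ((χ' i).mapsTo (hparc i hi).1)]
      exact χ3 ⟨t0, ht0⟩ i hi)
  have hRcl : IsClosed (Icc a b) := isClosed_Icc
  have hRΩ : (Icc a b) ⊆ Ω := hdom.sub
  have hRc : LocCone (Icc a b) := locCone_Icc_pi a b
  have hfR : ConicalSet (frontier (Icc a b)) := hRc.frontier.conicalSet
  have hfRR : frontier (Icc a b) ⊆ (Icc a b) := hRcl.frontier_subset
  let L0 : ConHomeo (Icc a b) (A0.at t0) := L ⟨t0, ht0⟩
  have hLf : L0.toFun '' frontier (Icc a b) = frontier (A0.at t0) :=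
    image_frontier_eq L0 hRcl hA0c.isClosed
  -- the comparison map on the surface
  let gf : ConHomeo (frontier (Icc a b)) (frontier (A0.at t0)) :=
    (h2.restr hfR (hfRR.trans hRΩ)).cast rfl k6
  let Lf : ConHomeo (frontier (Icc a b)) (frontier (A0.at t0)) := (L0.restr hfR hfRR).cast rfl hLf
  let φ : ConHomeo (frontier (Icc a b)) (frontier (Icc a b)) := gf.trans Lf.symm
  have hLφ : ∀ x ∈ frontier (Icc a b), L0.toFun (φ.toFun x) = h2.toFun x := fun x hx =>
    Lf.right_inv (gf.mapsTo hx)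
  have hφinv : ∀ x, φ.toFun x = L0.invFun (h2.toFun x) := fun _ => rfl
  -- the marked points
  have hφM : ∀ x ∈ p '' M, φ.toFun x = x := by
    rintro _ ⟨i, hi, rfl⟩
    have hiP := hM hi
    rw [hφinv, k1 i _ (hparc i hiP).1, harc i ((χ' i).mapsTo (hparc i hiP).1),
      show h.toFun ((χ' i).toFun (p i)) = y0 t0 i from χ3 ⟨t0, ht0⟩ i hiP,
      show y0 t0 i = L0.toFun (p i) from hyL ⟨t0, ht0⟩ i hi,
      L0.left_inv (hfRR (hparc i hiP).2)]
  -- closeness
  have hφρ : ∀ x ∈ rim a b k, ∀ i, i ≠ k → |φ.toFun x i - x i| ≤ ρ := by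
    intro x hx
    obtain ⟨j, hjF, hxj, hcl⟩ := hrim x hx
    refine hcl (t j) (ht j hjF) ⟨t0, ht0⟩ _ (φ.mapsTo hx.1) ?_
    show L0.toFun (φ.toFun x) ∈ _
    rw [hLφ x hx.1]
    have h1 : h2.toFun x ∈ h'.toFun '' K.tile j := by rw [← k2]; exact mem_image_of_mem _ hxj
    exact interior_subset (htile j hjF h1)
  obtain ⟨Φ, f1, f2, f3⟩ := hcol φ hφM hφρ θ hθ hθm
  obtain ⟨r, hr, hrf⟩ : ∃ r : ConHomeo (Icc a b) (Icc a b),
      (r.toFun = id ∨ r.toFun = refl a b k) ∧
      ∀ x ∈ frontier (Icc a b), r.toFun (Φ.toFun x) = φ.toFun x := by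
    rcases f1 with f1 | f1
    · refine ⟨ConHomeo.refl hRc.conicalSet, Or.inl rfl, fun x hx => ?_⟩
      show Φ.toFun x = _
      exact f1 hx
    · refine ⟨reflH a b k, Or.inr rfl, fun x hx => ?_⟩
      show refl a b k (Φ.toFun x) = _
      rw [f1 hx]
      exact refl_refl a b k _
  obtain ⟨h3, g1, g2⟩ := exists_replace hΩ hRcl hRΩ hRc hA0c.isClosed h2 k5 k6
    (Φ.trans (r.trans L0))
    (fun x hx => by
      show L0.toFun (r.toFun (Φ.toFun x)) = _
      rw [hrf x hx, hLφ x hx])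
  refine ⟨h3, ⟨t0, ht0⟩, r.toFun, hr, ?_, ?_, ?_, ?_, ?_⟩
  · intro i x hx hxi
    have hxΩ : x ∈ Ω := sk2_subset K (net_subset_sk2 K (mem_iUnion.2 ⟨i, hx⟩))
    rw [g2 x hxΩ hxi, k1 i x hx, harc i ((χ' i).mapsTo hx)]
  · intro x hx
    have hxΩ := hZ.sub hx
    have hxc : x ∈ ⋃ c, K.cell c := by rw [K.cover]; exact hxΩ
    obtain ⟨c, hc⟩ := mem_iUnion.1 hxc
    have hcd : Disjoint (K.cell c) (frontier (Icc a b)) := by
      by_contra hnd
      exact disjoint_left.1 (hZc c hnd) hx hc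
    rw [g2 x hxΩ (fun hi => disjoint_left.1 hZR hx (interior_subset hi)), k4 c hcd hc, hZ' hx]
  · rw [g1.image_eq]
    exact (Φ.trans (r.trans L0)).image_eq
  · intro x hx
    have hxR : x ∈ (Icc a b) := ⟨fun i => by have := hx.1 i; simp only at this; linarith,
      fun i => by have := hx.2 i; simp only at this; linarith⟩
    rw [g1 hxR]
    show L0.toFun (r.toFun (Φ.toFun x)) = L0.toFun (r.toFun x)
    rw [f2 x hx]
  · intro i hi z hz hzm hzk hzl
    rw [g1 hz]
    show L0.toFun (r.toFun (Φ.toFun z)) = L0.toFun z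
    rw [f3 (p i) (mem_image_of_mem _ hi) z hz hzm hzl]
    congr 1
    rcases hr with hr | hr
    · rw [hr]; rfl
    · rw [hr]; exact refl_eq_self hzk

end P073.GB932
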