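import Vale.Agent.P073.GB932.CutMain

/-!
# P073, block GB3: `SpecCut`, with the hypothesis that the body is a conical ball
-/

open Set Metric Topology Filter

namespace P073.GB932

open P073 P073.PR720 P073.GB73
open Vale.Agent.P073.St (V)

/-- `SpecCut` of `GB73/Spec.lean` with the hypothesis `ConBall 3 A0 (frontier A0)` in place of
convexity. -/
def SpecCut' : Prop :=
  ∀ (Vx B J I : Type) (e0 e1 : B → Vx) (inc : B → J → Prop) (qC : J → I → Prop) (Ω Λ : Set V)
    (K : Cx3 e0 e1 inc qC Ω) (h' : ConHomeo Ω Λ), IsOpen Ω → IsOpen Λ →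
  ∀ (A0 : Set V) (P : Set B) (y : B → V) (R : Set V) (p : B → V),
    ConBall 3 A0 (frontier A0) → A0 ⊆ Λ →
    Pat inc P → Crosses K.toGraph h'.toFun A0 P y → DomCut K R P p →
    (∀ j, {b | inc b j ∧ b ∈ P} = ∅ → Disjoint (h'.toFun '' K.tile j) (frontier A0)) →
    (∀ j b b', b ≠ b' → {b | inc b j ∧ b ∈ P} = {b, b'} →
        ConBall 1 (h'.toFun '' K.tile j ∩ frontier A0) {y b, y b'}) →
    (∀ j c, qC j c → ∀ z ∈ h'.toFun '' (K.tile j \ K.toCx2.bd j) ∩ frontier A0,
        z ∈ closure (h'.toFun '' (K.cell c \ ⋃ s, K.tile s) ∩ frontier A0)) →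
    (∀ v, K.y v ∈ interior R ↔ h'.toFun (K.y v) ∈ interior A0) →
  ∀ χ : (b : B) → ConHomeo (K.arc b) (K.arc b),
    (∀ b, (χ b).toFun (K.y (e0 b)) = K.y (e0 b)) → (∀ b, (χ b).toFun (K.y (e1 b)) = K.y (e1 b)) →
    (∀ b ∉ P, ∀ x ∈ K.arc b, (χ b).toFun x = x) → (∀ b ∈ P, h'.toFun ((χ b).toFun (p b)) = y b) →
    ∃ h2 : ConHomeo Ω Λ,
      (∀ b, ∀ x ∈ K.arc b, h2.toFun x = h'.toFun ((χ b).toFun x)) ∧
      (∀ j, h2.toFun '' K.tile j = h'.toFun '' K.tile j) ∧
      (∀ c, h2.toFun '' K.cell c = h'.toFun '' K.cell c) ∧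
      (∀ c, Disjoint (K.cell c) (frontier R) → EqOn h2.toFun h'.toFun (K.cell c)) ∧
      h2.toFun '' R = A0 ∧ h2.toFun '' (frontier R) = frontier A0

theorem specCut' (hin2 : InOut 2) (hin3 : InOut 3) (hJ : JordanSph 2) : SpecCut' := by
  intro Vx B J I e0 e1 inc qC Ω Λ K h hΩ hΛ A0 P y R p hball hsub hP hcr hdom h1 h2 h3 hv χ c0 c1
    c2 c3
  have hc : IsCompact A0 := hball.isCompact
  set A : Set V := pull h A0 with hAdef
  have hR := fullCut_of_domCut hdom
  have hAc : IsClosed A := (isCompact_pull h hsub hc).isClosed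
  have hfr : frontier A = pull h (frontier A0) := frontier_pull h hΩ hΛ hsub hc
  have hint : interior A = pull h (interior A0) := interior_pull h hΩ hΛ hsub
  have harcΩ : ∀ b, K.arc b ⊆ Ω := fun b => by
    obtain ⟨j, hj⟩ := K.arc_tile b
    exact (K.toCx2.arc_subset_tile hj).trans (tile_subset K j)
  have hdis : ∀ S ⊆ Ω, Disjoint (h.toFun '' S) (frontier A0) → Disjoint S (frontier A) := by
    intro S _ hd
    rw [hfr, disjoint_left]
    exact fun x hx hx' => disjoint_left.1 hd (mem_image_of_mem _ hx) hx'.2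
  have hyf : ∀ b ∈ P, y b ∈ h.toFun '' K.arc b ∩ frontier A0 := fun b hb => by
    rw [hcr.on b hb]; exact mem_singleton _
  have hfrsub : frontier A0 ⊆ Λ := hball.1.trans hsub
  have hsym : ∀ S : Set V, h.symm.toFun '' (h.toFun '' S ∩ frontier A0) =
      h.invFun '' (h.toFun '' S ∩ frontier A0) := fun _ => rfl
  -- the frontier of `A` is a conical sphere
  have hS2 : ConSphere 2 (frontier A) := by
    obtain ⟨ψ⟩ := hball.conSphere
    have e : h.symm.toFun '' frontier A0 = frontier A := by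
      rw [hfr, pull_eq h hfrsub]; rfl
    exact ⟨((h.symm.restr hball.conicalSet_bdry hfrsub).cast rfl e).symm.trans ψ⟩
  have hcrA : Crosses K.toGraph id A P (fun b => h.invFun (y b)) := by
    constructor
    · intro b hb
      rw [image_id]
      exact hdis _ (harcΩ b) (hcr.off b hb)
    · intro b hb
      rw [image_id, hfr, inter_pull h (harcΩ b), hcr.on b hb, image_singleton]; rfl
    · intro b hb
      have m : ∀ v, (K.y v ∈ Ω) := fun v => by
        obtain ⟨b, hb⟩ := K.vert_arc v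
        rcases hb with rfl | rfl
        · exact harcΩ b ((K.ball b).1 (Or.inl rfl))
        · exact harcΩ b ((K.ball b).1 (Or.inr rfl))
      simp only [id, hint]
      rcases hcr.ends b hb with ⟨a1, a2⟩ | ⟨a1, a2⟩
      · exact Or.inl ⟨⟨m _, a1⟩, fun h' => a2 h'.2⟩
      · exact Or.inr ⟨⟨m _, a1⟩, fun h' => a2 h'.2⟩
  have hoff : ∀ j, ¬ cr inc P j → Disjoint (K.tile j) (frontier A) := fun j hj =>
    hdis _ (tile_subset K j) (h1 j (not_not.1 hj))
  have hPne : ∃ x ∈ frontier A, x ∈ sk2 K := by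
    obtain ⟨b, hb⟩ := hP.ne
    have := hcrA.on b hb
    rw [image_id] at this
    have hm : h.invFun (y b) ∈ K.arc b ∩ frontier A := by rw [this]; exact mem_singleton _
    exact ⟨_, hm.2, net_subset_sk2 K (mem_iUnion.2 ⟨b, hm.1⟩)⟩
  have hA : PreCut K A P (fun b => h.invFun (y b)) :=
    { closed := hAc
      sub := inter_subset_left
      crosses := hcrA
      off_tile := hoff
      arc := by
        intro j b b' hne hbb
        have := (h2 j b b' hne hbb).image h.symm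
          ((inter_subset_left).trans ((image_mono (tile_subset K j)).trans h.mapsTo.image_subset))
        rw [← inter_pull h (tile_subset K j), ← hfr, image_pair] at this
        exact this
      off_cell := off_cell_of hΩ (conSphere_preconnected hS2) hPne hoff }
  have hvΩ : ∀ v, K.y v ∈ Ω := fun v => by
    obtain ⟨b, hb⟩ := K.vert_arc v
    rcases hb with rfl | rfl
    · exact harcΩ b ((K.ball b).1 (Or.inl rfl))
    · exact harcΩ b ((K.ball b).1 (Or.inr rfl))
  have hv' : ∀ v, K.y v ∈ interior R ↔ K.y v ∈ interior A := by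
    intro v
    rw [hv v, hint]
    exact ⟨fun h' => ⟨hvΩ v, h'⟩, fun h' => h'.2⟩
  have c3' : ∀ b ∈ P, (χ b).toFun (p b) = h.invFun (y b) := by
    intro b hb
    rw [← c3 b hb]
    exact (h.left_inv (harcΩ b ((χ b).mapsTo (hR.mem_arc hb).1))).symm
  obtain ⟨k0, a1, -, -, a4⟩ := exists_k0 hR.toPreCut hA hv' χ c0 c1 c2 c3'
  obtain ⟨k1, -, b2⟩ := exists_k1 hP hR.toPreCut hA χ c3' k0 a1 a4
  have hcl : ∀ j c, cr inc P j → qC j c → ∃ x ∈ frontier A, x ∈ K.cell c \ sk2 K := by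
    intro j c hj hc'
    obtain ⟨b, b', hne, hbb⟩ := exists_pair hP hj
    obtain ⟨z, hz, hz'⟩ := exists_mid (h2 j b b' hne hbb)
    obtain ⟨⟨x, hx, rfl⟩, hzf⟩ := hz
    have hxb : x ∉ K.toCx2.bd j := by
      intro hxb
      apply hz'
      have hxA : x ∈ K.toCx2.bd j ∩ frontier A := by
        rw [hfr]; exact ⟨hxb, tile_subset K j hx, hzf⟩
      rw [bd_frontier hA hbb] at hxA
      have hbm : b ∈ {b | inc b j ∧ b ∈ P} := by rw [hbb]; exact Or.inl rfl
      have hbm' : b' ∈ {b | inc b j ∧ b ∈ P} := by rw [hbb]; exact Or.inr rfl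
      rcases hxA with hxA | hxA
      · left
        have hxA : x = h.invFun (y b) := hxA
        rw [hxA, h.right_inv (hfrsub (hyf b hbm.2).2)]
      · right
        have hxA : x = h.invFun (y b') := hxA
        rw [hxA]
        exact h.right_inv (hfrsub (hyf b' hbm'.2).2)
    have hcl := h3 j c hc' _ ⟨mem_image_of_mem _ ⟨hx, hxb⟩, hzf⟩
    obtain ⟨w, ⟨⟨u, hu, rfl⟩, hwf⟩⟩ := closure_nonempty_iff.1 ⟨_, hcl⟩
    exact ⟨u, by rw [hfr]; exact ⟨cell_subset K c hu.1, hwf⟩, hu⟩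
  have hAF : FullCut K A P (fun b => h.invFun (y b)) :=
    fullCut_of_preCut hin2 hin3 (hJ _ hS2) hΩ hP hR hA k1 b2 hcl
  obtain ⟨φ, d1, d2, d3, d4, d5, d6⟩ := exists_iso hP hR hAF hv' χ c0 c1 c2 c3'
  have himg : ∀ S : Set V, h.toFun '' (pull h S) = S ∩ Λ := by
    intro S
    apply Subset.antisymm
    · rintro _ ⟨x, hx, rfl⟩
      exact ⟨hx.2, h.mapsTo hx.1⟩
    · rintro z ⟨hz, hzΛ⟩
      refine ⟨h.invFun z, ⟨h.mapsTo_inv hzΛ, ?_⟩, h.right_inv hzΛ⟩
      show h.toFun (h.invFun z) ∈ S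
      rw [h.right_inv hzΛ]; exact hz
  have hcomp : ∀ S : Set V, (φ.trans h).toFun '' S = h.toFun '' (φ.toFun '' S) := fun S => by
    rw [ConHomeo.trans_toFun, image_comp]
  refine ⟨φ.trans h, fun b x hx => ?_, fun j => ?_, fun c => ?_, fun c hc x hx => ?_, ?_, ?_⟩
  · show h.toFun (φ.toFun x) = _
    rw [d1 b x hx]
  · rw [hcomp, d2]
  · rw [hcomp, d3]
  · show h.toFun (φ.toFun x) = _
    rw [d4 c hc x hx]
  · rw [hcomp, d5, hAdef, himg, inter_eq_left]; exact hsub
  · rw [hcomp, d6, hfr, himg, inter_eq_left]; exact hfrsub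

end P073.GB932
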