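import Vale.Agent.P073.GB932.Final
import Vale.Agent.P073.GB932.Plate
import Vale.Agent.P073.ALX.Alexander
import Vale.Agent.P073.GB3.CleanFinal

/-!
# P073, block GB: unconditional forms
-/

namespace P073.GB932

theorem specClean : GB73.SpecClean := GB3.specClean_of_alex ALX.specAlex

theorem specCut'_unc : SpecCut' := specCut'_of ALX.ambStd_three H339.jordanSch_sphere

theorem specCut_unc : GB73.SpecCut := specCut ALX.ambStd_three

/-- **(GB)** rank 3 -/
theorem specGB_unc : GB73.SpecGB := specGB specClean specCut'_unc

/-- **(GB)** rank 2 -/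
theorem specGB2 : SpecGB2 := specGB2_of specClean specCut'_unc

end P073.GB932
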